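import Vale.Agent.P167.H640.CZ.Sum

/-!
# P167, general `q`, block BRQ: one exploration step

`zx_split`: off the open arm, a set `Z0` in the half box of radius `r1` is joined to the arc by a dual
path if and only if it is joined to the foot inside of the explored set `Zx` and `Zx` is joined to the arc
outside of `Zx`. `step_sum`: the indicator of `Z0` is the sum over the explored pairs.
`circ_neg`, `circ_pos`: the negative and positive part of the functional.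
-/

namespace Vale.Agent.P167.H640.CZ

open Finset Relation Vale.Agent.P167 Vale.Agent.P167.BR
open Vale.Agent.P145.FB (PStep)
open Vale.Agent.P167.QB (ha HArm LeftIn Stf FL XG dlt sgm wL slc flat_side)
open Vale.Agent.P167.E6 (IsPolygon Encloses dir face)

variable {b : ℤ × ℤ} {r r1 R1 R : ℤ} {ω ω' ζ0 : Cfg} {D Z0 : Finset (ℤ × ℤ)} {A W : Finset Ed}
  {s t v : ℤ × ℤ} {n m k l y j0 : ℕ} {q : ZMod n → ℤ × ℤ} {u : ℤ × ℤ → ℤ} {θ : ℝ} {σ : ℤ}
  {f : ℤ × ℤ → ℝ}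

/-! ### the explored set reads only its squares outside of the small half box -/

theorem ha_not {w : ℤ × ℤ} (h : w ∈ ha b r1 R1 ω) : w ∉ hbox b r1 := h.2.1

theorem Cx_congr2 (h : ∀ v ∈ Zx b r1 R1 ω, v ∉ hbox b r1 → ω v = ω' v) :
    Cx b r1 R1 ω = Cx b r1 R1 ω' := by
  ext s
  constructor
  · rintro ⟨u, hu, hue, hp⟩
    induction hp with
    | refl => exact cx_base hu hue
    | @tail x y hx hxy ih =>
      obtain ⟨u', hu', hue', hp'⟩ := ih
      refine ⟨u', hu', hue', hp'.tail ⟨hxy.1, hxy.2.1, ?_⟩⟩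
      obtain ⟨a1, a2, a3, a4, a5⟩ := hxy
      refine ⟨a3, a4, ?_⟩
      rw [← h _ (mem_Zx.2 ⟨a3, x, ⟨u, hu, hue, hx⟩, ?_⟩) a4]
      · exact a5
      · unfold Cor
        simp only
        omega
  · rintro ⟨u, hu, hue, hp⟩
    induction hp with
    | refl => exact cx_base hu hue
    | @tail x y hx hxy ih =>
      have ih' := ih
      obtain ⟨u', hu', hue', hp'⟩ := ih
      refine ⟨u', hu', hue', hp'.tail ⟨hxy.1, hxy.2.1, ?_⟩⟩
      obtain ⟨a1, a2, a3, a4, a5⟩ := hxy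
      refine ⟨a3, a4, ?_⟩
      rw [h _ (mem_Zx.2 ⟨a3, x, ih', ?_⟩) a4]
      · exact a5
      · unfold Cor
        simp only
        omega

theorem Zx_congr2 (h : ∀ v ∈ Zx b r1 R1 ω, v ∉ hbox b r1 → ω v = ω' v) :
    Zx b r1 R1 ω = Zx b r1 R1 ω' := by
  ext v
  rw [mem_Zx, mem_Zx, Cx_congr2 h]

theorem noarm_congr2 (h1 : 1 ≤ r1) (h2 : r1 < R1)
    (h : ∀ v ∈ Zx b r1 R1 ω, v ∉ hbox b r1 → ω v = ω' v) (hH : ¬ HArm b r1 R1 ω) :
    ¬ HArm b r1 R1 ω' := by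
  rintro ⟨u, s, hue, hu, hs, hp⟩
  rcases ReflTransGen.cases_head hp with h3 | ⟨x, h3, h4⟩
  · rw [h3] at hu
    omega
  · have hub : u ∈ sites (hbox b r1) := by
      rw [mem_sites_hbox h1]
      rw [nm, max_le_iff, abs_le, abs_le] at hu
      simp only [Prod.fst_sub, Prod.snd_sub] at hu
      obtain ⟨-, -, h6, -, -⟩ := h3
      rw [mem_hbox] at h6
      simp only at h6
      omega
    have hsC : s ∈ Cx b r1 R1 ω := by
      rw [Cx_congr2 h]
      exact ⟨u, hub, hue, hp⟩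
    have h5 := cx_in h1 hH hsC
    rw [nm, le_max_iff, le_abs, le_abs] at hs
    simp only [Prod.fst_sub, Prod.snd_sub] at hs
    omega

theorem jn_congr {c : Bool} {U T : Set (ℤ × ℤ)} (h : ∀ v ∈ D, ω v = ω' v) :
    Jn c D ω U T ↔ Jn c D ω' U T := by
  have e : H632.cs c ω ∩ (↑D : Set (ℤ × ℤ)) = H632.cs c ω' ∩ ↑D := by
    ext v
    simp only [H632.cs, Set.mem_inter_iff, Set.mem_ofPred_eq, mem_coe]
    constructor
    · rintro ⟨a1, a2⟩
      exact ⟨by rw [← h v a2]; exact a1, a2⟩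
    · rintro ⟨a1, a2⟩
      exact ⟨by rw [h v a2]; exact a1, a2⟩
  unfold Jn
  rw [e]

/-- The set `Z0` is joined to the foot inside of the explored set. -/
def Rim (b : ℤ × ℤ) (r1 R1 : ℤ) (Z0 : Finset (ℤ × ℤ)) (ω : Cfg) : Prop :=
  ∃ x : ℤ, (x, b.2) ∈ Cx b r1 R1 ω ∧ (∀ x', x < x' → (x', b.2) ∉ Cx b r1 R1 ω) ∧
    Jn false (Zx b r1 R1 ω \ Z0) ω ↑(sites Z0) {(x + 1, b.2)}

theorem rim_congr (h : ∀ v ∈ Zx b r1 R1 ω, ω v = ω' v) :
    Rim b r1 R1 Z0 ω ↔ Rim b r1 R1 Z0 ω' := by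
  unfold Rim
  rw [← Zx_congr h, ← Cx_congr h]
  refine exists_congr fun x => and_congr_right fun _ => and_congr_right fun _ => ?_
  exact jn_congr fun v hv => h v (mem_sdiff.1 hv).1

/-! ### paths -/

/-- The dual side of a strand at the cluster is connected inside of the explored set. -/
theorem rs_path (S : Se q D m r1 R1 R ω) (hA : A ∈ pcs (omx (q m) r1 R1 ω) D)
    (hls : ∀ e ∈ A, ls e ∈ Cx (q m) r1 R1 ω) {e e' : Ed} (he : e ∈ A) (he' : e' ∈ A) :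
    ReflTransGen (PStep {v | ω v = false ∧ v ∈ Zx (q m) r1 R1 ω ∧ v ∉ hbox (q m) r1})
      (rs e) (rs e') := by
  refine (piece_const (P := fun e' => e' ∈ A ∧ ReflTransGen (PStep {v | ω v = false ∧
    v ∈ Zx (q m) r1 R1 ω ∧ v ∉ hbox (q m) r1}) (rs e) (rs e')) hA (fun e1 heD => ?_) he he').1
    ⟨he, ReflTransGen.refl⟩ |>.2
  rw [← nx_mem_iff hA heD]
  refine and_congr_right fun heA => ?_
  rcases H192.ls_nx (omx (q m) r1 R1 ω) e1 with ⟨-, -, h2, -⟩ | ⟨h1, h2, -, h3⟩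
  · rw [h2]
  · have h5 := sq_near S.flat S.h3 (cx_in S.h1 S.noarm (hls e1 heA)) heD (cor_ls e1).1
    have h6 : ω (hdv e1) = false ∧ hdv e1 ∉ hbox (q m) r1 := by
      unfold omx at h1
      by_cases h6 : hdv e1 ∈ hbox (q m) r1
      · rw [if_pos h6] at h1
        exact absurd h1 (by simp)
      · rw [if_neg h6, if_pos h5] at h1
        exact ⟨h1, h6⟩
    have h7 : PStep {v | ω v = false ∧ v ∈ Zx (q m) r1 R1 ω ∧ v ∉ hbox (q m) r1} (rs e1)
        (rs (nx (omx (q m) r1 R1 ω) e1)) := by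
      refine ⟨h2.1, h2.2.1, ?_⟩
      rw [h3]
      exact ⟨h6.1, mem_Zx.2 ⟨h5, ls e1, hls e1 heA, (cor_ls e1).1⟩, h6.2⟩
    exact ⟨fun h => h.tail h7, fun h => h.tail h7.symm⟩

theorem Zx_D (S : Se q D m r1 R1 R ω) : Zx (q m) r1 R1 ω ⊆ D :=
  Zx_sub.trans (hbox_sub (S.flat.mono (by have := S.h3; omega)))

/-- Potentials of the strands of `omx` are constant on the cluster. -/
theorem cx_const (S : Se q D m r1 R1 R ω) (hA : A ∈ pcs (omx (q m) r1 R1 ω) D)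
    (hu : PotD D A u) (hs : s ∈ Cx (q m) r1 R1 ω) (ht : t ∈ Cx (q m) r1 R1 ω) : u s = u t := by
  have h2 := S.h2
  have h3 := S.h3
  refine pot_reach hA hu ((reach_iff (c := true) ?_).2 ?_)
  · have := cx_even hs
    rw [Int.even_iff] at this
    rw [this]
    rfl
  · refine ReflTransGen.mono ?_ _ _ (cx_conn S.h1 hs ht)
    intro x y h
    refine ⟨h.1, h.2.1, omx_true.2 h.2.2, ?_⟩
    rcases h.2.2 with h4 | ⟨h4, -, -⟩
    · exact hbox_sub (S.flat.mono (show r1 ≤ R by omega)) h4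
    · exact hbox_sub (S.flat.mono (show R1 ≤ R by omega)) h4

/-- Potentials of the strands of `omx` are constant along closed steps outside of the explored set. -/
theorem off_const (hA : A ∈ pcs (omx b r1 R1 ω) D) (hu : PotD D A u)
    (h2 : r1 ≤ R1) (hs : ¬ Even (s.1 + s.2))
    (h : ReflTransGen (PStep {v | ω v = false ∧ v ∈ D ∧ v ∉ Zx b r1 R1 ω}) s t) : u s = u t := by
  have key : ReflTransGen (Stp (omx b r1 R1 ω) D) s t ∧ ¬ Even (t.1 + t.2) := by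
    refine QB.stp_of (F := {v | ω v = false ∧ v ∈ D ∧ v ∉ Zx b r1 R1 ω}) (fun v hv => ?_) hs h
    obtain ⟨h1, h2', h3⟩ := hv
    refine ⟨?_, h2'⟩
    have h4 : v ∉ hbox b r1 := fun h' => h3 (Zx_low h2 h')
    unfold omx
    rw [if_neg h4]
    split_ifs
    · exact h1
    · rfl
  exact pot_reach hA hu key.1

/-- The edge between an odd site of the explored set and the cluster. -/
theorem zx_edge (S : Se q D m r1 R1 R ω) (hs : s ∈ sites (Zx (q m) r1 R1 ω))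
    (ho : ¬ Even (s.1 + s.2)) : ∃ e ∈ eds D, ls e ∈ Cx (q m) r1 R1 ω ∧ rs e = s := by
  obtain ⟨v, hv, hc⟩ := mem_sites.1 hs
  obtain ⟨hvR, c, hcC, hcv⟩ := mem_Zx.1 hv
  obtain ⟨e, he1, he2, he3⟩ := exists_ed (cx_even hcC) ho hcv hc
  have hvD := Zx_D S hv
  refine ⟨e, ?_, by rw [he1]; exact hcC, he2⟩
  rw [mem_eds]
  rcases he3 with h6 | h6
  · left; rw [h6]; exact hvD
  · right; rw [h6]; exact hvD

/-- **Rerouting** an excursion outside of the explored set. -/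
theorem reroute (S : Se q D m r1 R1 R ω) (hs : s ∈ sites (Zx (q m) r1 R1 ω))
    (ht : t ∈ sites (Zx (q m) r1 R1 ω)) (ho : ¬ Even (s.1 + s.2))
    (h : ReflTransGen (PStep {v | ω v = false ∧ v ∈ D ∧ v ∉ Zx (q m) r1 R1 ω}) s t) :
    ReflTransGen (PStep {v | ω v = false ∧ v ∈ Zx (q m) r1 R1 ω ∧ v ∉ hbox (q m) r1}) s t := by
  have hto : ¬ Even (t.1 + t.2) := by
    have := even_path h
    rw [Int.even_iff] at *
    omega
  obtain ⟨e1, he1, hc1, hr1⟩ := zx_edge S hs ho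
  obtain ⟨e2, he2, hc2, hr2⟩ := zx_edge S ht hto
  set ζ := omx (q m) r1 R1 ω
  have hA : piece ζ D e1 ∈ pcs ζ D := piece_mem_pcs he1
  have hself : e1 ∈ piece ζ D e1 := self_mem_piece he1
  obtain ⟨u, hu⟩ := exists_pot S.poly S.enc hA
  have hls : ∀ e ∈ piece ζ D e1, ls e ∈ Cx (q m) r1 R1 ω := by
    intro e he
    refine (piece_const (P := fun e => ls e ∈ Cx (q m) r1 R1 ω) hA (fun e he => ?_) hself he).1 hc1
    rcases ls_stp (ω := ζ) he with h4 | h4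
    · simp only [h4]
    · exact ⟨fun h => cx_stp h h4, fun h => cx_stp h h4.symm⟩
  have e2A : e2 ∈ piece ζ D e1 := by
    by_contra hc
    have a1 := hu.eq_add he1 hself
    have a2 := hu.eq he2 hc
    have a3 := cx_const S hA hu hc1 hc2
    have a4 := off_const hA hu S.h2.le ho h
    rw [hr1] at a1
    rw [hr2] at a2
    omega
  have := rs_path S hA hls hself e2A
  rwa [hr1, hr2] at this

variable (S : Se q D m r1 R1 R ω) (w : Wl q D m r1 R1 ω W y j0 u)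
include S w

/-- A site of the explored set which is joined to the arc is joined to the foot. -/
theorem to_foot (hml : (m : ℤ) + R ≤ l) (hkn : k ≤ n) (hs : s ∈ sites (Zx (q m) r1 R1 ω))
    (ho : ¬ Even (s.1 + s.2)) {j : ℕ} (hj1 : l ≤ j) (hj2 : j ≤ k)
    (h : ReflTransGen (PStep {v | ω v = false ∧ v ∈ D ∧ v ∉ Zx (q m) r1 R1 ω}) s (q j)) :
    ReflTransGen (PStep {v | ω v = false ∧ v ∈ Zx (q m) r1 R1 ω ∧ v ∉ hbox (q m) r1})
      (q (j0 + 1 : ℕ)) s := by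
  have h5 := w.j2
  have h3 := S.h3
  obtain ⟨e, he, hc, hr⟩ := zx_edge S hs ho
  have e1 := off_const w.mem w.pot S.h2.le ho h
  have e2 : u (q j) = u (q 0) := by
    by_contra hc'
    have := (wl_hard S w (hj2.trans hkn)).1 hc'
    omega
  have heW : e ∈ W := by
    by_contra hc'
    have h6 := w.pot.eq he hc'
    rw [hr, e1, e2] at h6
    exact w.cx _ hc h6
  have h7 := rs_path S w.mem w.ls w.xy.2.2.1 heW
  rw [(be_even S.poly S.enc w.xy.2.2.2.2.1).2.1, hr] at h7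
  push_cast
  exact h7

/-- The foot. -/
theorem foot_eq : q (j0 : ℕ) = ((q j0).1, (q m).2) ∧ q (j0 + 1 : ℕ) = ((q j0).1 + 1, (q m).2) ∧
    ∀ x', (q j0).1 < x' → (x', (q m).2) ∉ Cx (q m) r1 R1 ω := by
  have h1 := S.h1
  have h2 := S.h2
  have h3 := S.h3
  have h4 := w.j1
  have h5 := w.j2
  have hfs : ∀ i : ℕ, (m : ℤ) - R ≤ i → (i : ℤ) < m + R →
      q (i : ℕ) = ((q m).1 + ((i : ℤ) - m), (q m).2) := fun i k1 k2 =>
    (flat_side S.poly S.enc S.flat (by omega) S.mn S.off k1 k2).1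
  have hfr := flat_range S.poly S.enc S.flat (by omega) S.mn S.off
  have e1 := hfs j0 (by omega) (by omega)
  have e2 := hfs (j0 + 1) (by push_cast; omega) (by push_cast; omega)
  refine ⟨?_, ?_, ?_⟩
  · rw [e1]
  · rw [e1, e2]
    ext
    · simp only
      push_cast
      ring
    · rfl
  · intro x' hx' hc
    have h6 := cx_in h1 S.noarm hc
    simp only at h6
    have e3 := hfs ((m : ℤ) + (x' - (q m).1)).toNat (by omega) (by omega)
    set i := ((m : ℤ) + (x' - (q m).1)).toNat with hi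
    have e4 : q (i : ℕ) = (x', (q m).2) := by
      rw [e3]
      ext
      · simp only
        omega
      · rfl
    rw [← e4] at hc
    have h7 := (wl_hard S w (by omega)).1 (w.cx _ hc)
    rw [e1] at hx'
    simp only at hx'
    omega

/-- **The exploration step.** -/
theorem wl_split (hZ : Z0 ⊆ hbox (q m) r1) (hml : (m : ℤ) + R ≤ l) (hkn : k ≤ n) :
    Jn false (D \ Z0) ω ↑(sites Z0) {z | ∃ j : ℕ, l ≤ j ∧ j ≤ k ∧ q j = z} ↔
      Rim (q m) r1 R1 Z0 ω ∧ Jn false (D \ Zx (q m) r1 R1 ω) ω ↑(sites (Zx (q m) r1 R1 ω))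
        {z | ∃ j : ℕ, l ≤ j ∧ j ≤ k ∧ q j = z} := by
  obtain ⟨f1, f2, f3⟩ := foot_eq S w
  have hlow := Zx_low (b := q m) (ω := ω) S.h2.le
  have hZD := Zx_D S
  have hfx := wl_j0 S w
  constructor
  · rintro ⟨z0, hz0, t, ⟨j, hj1, hj2, rfl⟩, hpar, hp⟩
    have hpar' : (z0.1 + z0.2) % 2 = 1 := hpar
    have key : ∀ s, ReflTransGen (PStep (H632.cs false ω ∩ (↑(D \ Z0) : Set (ℤ × ℤ)))) z0 s →
        ∃ u1 ∈ sites (Zx (q m) r1 R1 ω), ¬ Even (u1.1 + u1.2) ∧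
          ReflTransGen (PStep (H632.cs false ω ∩ (↑(Zx (q m) r1 R1 ω \ Z0) : Set (ℤ × ℤ)))) z0 u1 ∧
          ReflTransGen (PStep {v | ω v = false ∧ v ∈ D ∧ v ∉ Zx (q m) r1 R1 ω}) u1 s := by
      intro s hs
      induction hs with
      | refl => exact ⟨z0, sites_mono (hZ.trans hlow) hz0, by rw [Int.even_iff]; omega,
          ReflTransGen.refl, ReflTransGen.refl⟩
      | @tail s s' _ hss ih =>
        obtain ⟨u1, a1, a2, a3, a4⟩ := ih
        obtain ⟨b1, b2, b3, b4⟩ := hss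
        rw [mem_coe, mem_sdiff] at b4
        by_cases hv : (min s.1 s'.1, min s.2 s'.2) ∈ Zx (q m) r1 R1 ω
        · have hsZ : s ∈ sites (Zx (q m) r1 R1 ω) := mem_sites.2 ⟨_, hv, by simp only; omega⟩
          have hsZ' : s' ∈ sites (Zx (q m) r1 R1 ω) := mem_sites.2 ⟨_, hv, by simp only; omega⟩
          have h6 := reroute S a1 hsZ a2 a4
          have h7 := even_path h6
          refine ⟨s', hsZ', ?_, (a3.trans (ReflTransGen.mono (fun x y h => ⟨h.1, h.2.1, ?_⟩) _ _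
            h6)).tail ⟨b1, b2, b3, ?_⟩, ReflTransGen.refl⟩
          · rw [Int.even_iff] at *
            omega
          · rw [mem_coe, mem_sdiff]
            exact ⟨hv, b4.2⟩
          · obtain ⟨-, -, c1, c2, c3⟩ := h
            refine ⟨c1, ?_⟩
            rw [mem_coe, mem_sdiff]
            exact ⟨c2, fun h' => c3 (hZ h')⟩
        · exact ⟨u1, a1, a2, a3, a4.tail ⟨b1, b2, b3, b4.1, hv⟩⟩
    obtain ⟨u1, a1, a2, a3, a4⟩ := key _ hp
    have h8 := to_foot S w hml hkn a1 a2 hj1 hj2 a4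
    refine ⟨⟨(q j0).1, by rw [← f1]; exact hfx, f3, z0, hz0, _, rfl, hpar, ?_⟩, u1,
      mem_coe.2 a1, q j, ⟨j, hj1, hj2, rfl⟩, ?_, ?_⟩
    · rw [← f2]
      refine a3.trans (ReflTransGen.mono (fun x y h => ⟨h.1, h.2.1, ?_⟩) _ _ (path_symm h8))
      obtain ⟨-, -, c1, c2, c3⟩ := h
      refine ⟨c1, ?_⟩
      rw [mem_coe, mem_sdiff]
      exact ⟨c2, fun h' => c3 (hZ h')⟩
    · show _ = (1 : ℤ)
      rw [Int.even_iff] at a2
      omega
    · refine ReflTransGen.mono (fun x y h => ⟨h.1, h.2.1, ?_⟩) _ _ a4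
      obtain ⟨-, -, c1, c2, c3⟩ := h
      refine ⟨c1, ?_⟩
      rw [mem_coe, mem_sdiff]
      exact ⟨c2, c3⟩
  · rintro ⟨⟨x, hx1, hx2, z0, hz0, z, hz, hpar, hp⟩, u1, hu1, t, ⟨j, hj1, hj2, rfl⟩, hpar1, hp1⟩
    have hxe : x = (q j0).1 := by
      rcases lt_trichotomy x (q j0).1 with h | h | h
      · exact absurd (by rw [← f1]; exact hfx) (hx2 _ h)
      · exact h
      · exact absurd hx1 (f3 _ h)
    have hze : z = q (j0 + 1 : ℕ) := by
      rw [f2, ← hxe]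
      exact hz
    have hpar1' : (u1.1 + u1.2) % 2 = 1 := hpar1
    have h4 : ReflTransGen (PStep {v | ω v = false ∧ v ∈ D ∧ v ∉ Zx (q m) r1 R1 ω}) u1 (q j) := by
      refine ReflTransGen.mono (fun x y h => ⟨h.1, h.2.1, ?_⟩) _ _ hp1
      obtain ⟨-, -, c1, c2⟩ := h
      rw [mem_coe, mem_sdiff] at c2
      exact ⟨c1, c2.1, c2.2⟩
    have h8 := to_foot S w hml hkn hu1 (by rw [Int.even_iff]; omega) hj1 hj2 h4
    rw [hze] at hp
    refine ⟨z0, hz0, q j, ⟨j, hj1, hj2, rfl⟩, hpar, ?_⟩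
    refine (ReflTransGen.trans (ReflTransGen.mono (fun x y h => ⟨h.1, h.2.1, ?_⟩) _ _ hp)
      (ReflTransGen.mono (fun x y h => ⟨h.1, h.2.1, ?_⟩) _ _ h8)).trans
      (ReflTransGen.mono (fun x y h => ⟨h.1, h.2.1, ?_⟩) _ _ h4)
    · obtain ⟨-, -, c1, c2⟩ := h
      rw [mem_coe, mem_sdiff] at c2
      refine ⟨c1, ?_⟩
      rw [mem_coe, mem_sdiff]
      exact ⟨hZD c2.1, c2.2⟩
    · obtain ⟨-, -, c1, c2, c3⟩ := h
      refine ⟨c1, ?_⟩
      rw [mem_coe, mem_sdiff]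
      exact ⟨hZD c2, fun h' => c3 (hZ h')⟩
    · obtain ⟨-, -, c1, c2, c3⟩ := h
      refine ⟨c1, ?_⟩
      rw [mem_coe, mem_sdiff]
      exact ⟨c2, fun h' => c3 (hlow (hZ h'))⟩

omit w in
/-- **The exploration step.** -/
theorem zx_split (hZ : Z0 ⊆ hbox (q m) r1) (hml : (m : ℤ) + R ≤ l) (hkn : k ≤ n) :
    Jn false (D \ Z0) ω ↑(sites Z0) {z | ∃ j : ℕ, l ≤ j ∧ j ≤ k ∧ q j = z} ↔
      Rim (q m) r1 R1 Z0 ω ∧ Jn false (D \ Zx (q m) r1 R1 ω) ω ↑(sites (Zx (q m) r1 R1 ω))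
        {z | ∃ j : ℕ, l ≤ j ∧ j ≤ k ∧ q j = z} := by
  obtain ⟨W, y, j0, u, w⟩ := exists_wall S
  exact wl_split S w hZ hml hkn

omit S w

/-! ### sums over the explored pairs -/

theorem mem_Idx {p : Finset (ℤ × ℤ) × Finset (ℤ × ℤ)} : p ∈ Idx b r1 R1 ↔
    p.1 ⊆ hbox b R1 ∧ p.2 ⊆ p.1 ∧ Zx b r1 R1 (chi p.2) = p.1 ∧ ¬ HArm b r1 R1 (chi p.2) := by
  classical
  unfold Idx
  rw [mem_filter, mem_product, mem_powerset, mem_powerset]
  constructor
  · rintro ⟨⟨h1, h2⟩, h3⟩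
    exact ⟨h1, h3⟩
  · rintro ⟨h1, h3⟩
    exact ⟨⟨h1, h3.1.trans h1⟩, h3⟩

open Classical in
/-- The explored pair of a configuration. -/
noncomputable def pr0 (b : ℤ × ℤ) (r1 R1 : ℤ) (ω : Cfg) : Finset (ℤ × ℤ) × Finset (ℤ × ℤ) :=
  (Zx b r1 R1 ω, (Zx b r1 R1 ω).filter fun v => ω v = true)

theorem chi_pr0 {v : ℤ × ℤ} (hv : v ∈ Zx b r1 R1 ω) : ω v = chi (pr0 b r1 R1 ω).2 v := by
  classical
  unfold chi pr0
  by_cases h5 : ω v = true
  · rw [h5, decide_eq_true (mem_filter.2 ⟨hv, h5⟩)]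
  · simp only
    rw [show decide (v ∈ (Zx b r1 R1 ω).filter fun v => ω v = true) = false from
      decide_eq_false (fun h6 => h5 (mem_filter.1 h6).2)]
    simpa using h5

theorem pr0_mem (h1 : 1 ≤ r1) (h2 : r1 < R1) (hH : ¬ HArm b r1 R1 ω) :
    pr0 b r1 R1 ω ∈ Idx b r1 R1 := by
  classical
  rw [mem_Idx]
  refine ⟨Zx_sub, filter_subset _ _, (Zx_congr fun v hv => chi_pr0 hv).symm,
    noarm_congr h1 h2 (fun v hv => chi_pr0 hv) hH⟩

/-- The event of a pair determines the pair and excludes the open arm. -/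
theorem pr0_eq (h1 : 1 ≤ r1) (h2 : r1 < R1) {p : Finset (ℤ × ℤ) × Finset (ℤ × ℤ)}
    (hp : p ∈ Idx b r1 R1) (h : ∀ v ∈ p.1, ω v = chi p.2 v) :
    p = pr0 b r1 R1 ω ∧ ¬ HArm b r1 R1 ω := by
  classical
  obtain ⟨-, p1, p2, p3⟩ := mem_Idx.1 hp
  have h' : ∀ v ∈ Zx b r1 R1 (chi p.2), chi p.2 v = ω v := by
    rw [p2]
    exact fun v hv => (h v hv).symm
  have e1 : Zx b r1 R1 ω = p.1 := by
    rw [← Zx_congr h', p2]
  refine ⟨Prod.ext e1.symm ?_, noarm_congr h1 h2 h' p3⟩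
  ext v
  unfold pr0
  simp only
  rw [mem_filter, e1]
  constructor
  · intro hv
    refine ⟨p1 hv, ?_⟩
    rw [h v (p1 hv)]
    exact decide_eq_true hv
  · rintro ⟨hv, h6⟩
    rw [h v hv] at h6
    exact of_decide_eq_true h6

open Classical in
/-- **A sum over the explored pairs** has at most one term. -/
theorem sum_pairs (h1 : 1 ≤ r1) (h2 : r1 < R1) (c : Finset (ℤ × ℤ) × Finset (ℤ × ℤ) → ℝ)
    (T : Set (ℤ × ℤ)) (ω : Cfg) :
    ∑ p ∈ Idx b r1 R1, c p * fzx D p.1 (chi p.2) T ω =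
      if HArm b r1 R1 ω then 0 else c (pr0 b r1 R1 ω) *
        (if Jn false (D \ Zx b r1 R1 ω) ω ↑(sites (Zx b r1 R1 ω)) T then 1 else 0) := by
  by_cases hH : HArm b r1 R1 ω
  · rw [if_pos hH, sum_eq_zero]
    intro p hp
    unfold fzx
    rw [if_neg, mul_zero]
    rintro ⟨h5, -⟩
    exact (pr0_eq h1 h2 hp h5).2 hH
  · rw [if_neg hH, sum_eq_single_of_mem _ (pr0_mem h1 h2 hH)]
    · unfold fzx
      congr 1
      refine if_congr ?_ rfl rfl
      exact ⟨fun h5 => h5.2, fun h5 => ⟨fun v hv => chi_pr0 hv, h5⟩⟩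
    · intro p hp hne
      unfold fzx
      rw [if_neg, mul_zero]
      rintro ⟨h5, -⟩
      exact hne (pr0_eq h1 h2 hp h5).1

open Classical in
/-- **The step for indicators**: the coefficient is `1` if the pair continues `(Z0, ζ0)` and `Z0` is joined
to the foot. -/
theorem step_sum (hq : IsPolygon q) (hD : Encloses q D)
    (hF : Flt D (q m) R) (hm : m < n) (h0 : q 0 ∉ sites (hbox (q m) R)) (h1 : 1 ≤ r1)
    (h3 : r1 < R1) (h4 : R1 + 2 ≤ R) (hml : (m : ℤ) + R ≤ l) (hkn : k ≤ n)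
    (hZ : Z0 ⊆ hbox (q m) r1) (ζ0 : Cfg) (ω : Cfg) :
    (if HArm (q m) r1 R1 ω then 0 else
      fzx D Z0 ζ0 {z | ∃ j : ℕ, l ≤ j ∧ j ≤ k ∧ q j = z} ω) =
      ∑ p ∈ Idx (q m) r1 R1, (if (∀ v ∈ Z0, chi p.2 v = ζ0 v) ∧ Rim (q m) r1 R1 Z0 (chi p.2)
        then 1 else 0) * fzx D p.1 (chi p.2) {z | ∃ j : ℕ, l ≤ j ∧ j ≤ k ∧ q j = z} ω := by
  rw [sum_pairs h1 h3]
  by_cases hH : HArm (q m) r1 R1 ω
  · rw [if_pos hH, if_pos hH]
  · rw [if_neg hH, if_neg hH, ite_zero_mul_ite_zero, one_mul]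
    have S : Se q D m r1 R1 R ω := ⟨hq, hD, hF, hm, h0, h1, h3, h4, hH⟩
    have hlow := Zx_low (b := q m) (ω := ω) h3.le
    unfold fzx
    refine if_congr ?_ rfl rfl
    rw [zx_split S hZ hml hkn, ← rim_congr fun v hv => chi_pr0 hv, ← and_assoc]
    have e : (∀ v ∈ Z0, ω v = ζ0 v) ↔ (∀ v ∈ Z0, chi (pr0 (q m) r1 R1 ω).2 v = ζ0 v) :=
      forall₂_congr fun v hv => by rw [chi_pr0 (hlow (hZ hv))]
    rw [e]

open Classical in
/-- The negative part of the functional. -/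
theorem circ_neg (h0t : 0 < θ) (h1t : θ ≤ Real.pi / 3) (hq : IsPolygon q) (hD : Encloses q D)
    (hF : Flt D (q m) R) (hm : m < n) (h0 : q 0 ∉ sites (hbox (q m) R)) (h1 : 1 ≤ r)
    (h2 : r + 2 ≤ r1) (h3 : r1 < R1) (h4 : R1 + 2 ≤ R) (hml : (m : ℤ) + R ≤ l) (hlk : l < k)
    (hkn : k ≤ n) (hf : ∀ z, f z ≠ 0 → z ∈ sites (hbox (q m) r)) (hs : ∑ᶠ z, f z = θ) (ω : Cfg) :
    (if HArm (q m) r1 R1 ω then 0 else
      max (- XG θ q D k (fun z => f z - dlt (q l) θ z) ω) 0) =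
      (2 * Real.cos θ) ^ (sgm q l - sgm q m) * ∑ p ∈ Idx (q m) r1 R1,
        max (- cof θ (q m) r r1 R1 f p) 0 *
          fzx D p.1 (chi p.2) {z | ∃ j : ℕ, l ≤ j ∧ j ≤ k ∧ q j = z} ω := by
  have h5 := circ_sum h0t h1t hq hD hF hm h0 h1 h2 h3 h4 hml hlk hkn hf hs ω
  rw [sum_pairs (by omega) h3] at h5 ⊢
  by_cases hH : HArm (q m) r1 R1 ω
  · rw [if_pos hH, if_pos hH, mul_zero]
  · rw [if_neg hH, if_neg hH] at h5 ⊢
    rw [h5]
    have hc : 0 < Real.cos θ := Real.cos_pos_of_mem_Ioo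
      ⟨by linarith [Real.pi_pos], by linarith [Real.pi_pos]⟩
    have hz : 0 ≤ (2 * Real.cos θ) ^ (sgm q l - sgm q m) := zpow_nonneg (by linarith) _
    split_ifs
    · rw [mul_one, mul_one, mul_max_of_nonneg _ _ hz, mul_zero, mul_neg]
    · simp

open Classical in
/-- The positive part of the functional. -/
theorem circ_pos (h0t : 0 < θ) (h1t : θ ≤ Real.pi / 3) (hq : IsPolygon q) (hD : Encloses q D)
    (hF : Flt D (q m) R) (hm : m < n) (h0 : q 0 ∉ sites (hbox (q m) R)) (h1 : 1 ≤ r)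
    (h2 : r + 2 ≤ r1) (h3 : r1 < R1) (h4 : R1 + 2 ≤ R) (hml : (m : ℤ) + R ≤ l) (hlk : l < k)
    (hkn : k ≤ n) (hf : ∀ z, f z ≠ 0 → z ∈ sites (hbox (q m) r)) (hs : ∑ᶠ z, f z = θ) (ω : Cfg) :
    (if HArm (q m) r1 R1 ω then 0 else
      max (XG θ q D k (fun z => f z - dlt (q l) θ z) ω) 0) =
      (2 * Real.cos θ) ^ (sgm q l - sgm q m) * ∑ p ∈ Idx (q m) r1 R1,
        max (cof θ (q m) r r1 R1 f p) 0 *
          fzx D p.1 (chi p.2) {z | ∃ j : ℕ, l ≤ j ∧ j ≤ k ∧ q j = z} ω := by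
  have h5 := circ_sum h0t h1t hq hD hF hm h0 h1 h2 h3 h4 hml hlk hkn hf hs ω
  rw [sum_pairs (by omega) h3] at h5 ⊢
  by_cases hH : HArm (q m) r1 R1 ω
  · rw [if_pos hH, if_pos hH, mul_zero]
  · rw [if_neg hH, if_neg hH] at h5 ⊢
    rw [h5]
    have hc : 0 < Real.cos θ := Real.cos_pos_of_mem_Ioo
      ⟨by linarith [Real.pi_pos], by linarith [Real.pi_pos]⟩
    have hz : 0 ≤ (2 * Real.cos θ) ^ (sgm q l - sgm q m) := zpow_nonneg (by linarith) _
    split_ifs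
    · rw [mul_one, mul_one, mul_max_of_nonneg _ _ hz, mul_zero]
    · simp

end Vale.Agent.P167.H640.CZ
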