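import Vale.Agent.P167.H640.CZ.Zx
import Vale.Agent.P167.QB.Circ

/-!
# P167, general `q`, block BRQ (A): the state function off the open arm

`stf_zx`: if there is no open arm in the half annulus then the state function is the product of a local
functional (`GZ`) of the explored set `Zx` and the indicator that `Zx` is joined to the free arc by a
dual path outside of `Zx`.
-/

namespace Vale.Agent.P167.H640.CZ

open Finset Relation Vale.Agent.P167 Vale.Agent.P167.BR
open Vale.Agent.P145.FB (PStep)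
open Vale.Agent.P167.QB (ha HArm Ard sep_ard ard_lp ard_xy flat_side GI Gin LeftIn Stf stfCirc
  ard_iff_of_eq)
open Vale.Agent.P167.QX (lo hi exists_xy lo_xy hi_xy)
open Vale.Agent.P167.H718 (IsXY)
open Vale.Agent.P167.E6 (IsPolygon Encloses dir face)

variable {b : ℤ × ℤ} {r r1 R1 R : ℤ} {ω ω' : Cfg} {D : Finset (ℤ × ℤ)} {A W : Finset Ed}
  {s t v : ℤ × ℤ} {n m k l y j0 : ℕ} {q : ZMod n → ℤ × ℤ} {u : ℤ × ℤ → ℤ} {θ : ℝ}

theorem q_mem_sites (hq : IsPolygon q) (hD : Encloses q D) (i : ZMod n) : q i ∈ sites D := by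
  rcases be_sides hq i with ⟨h1, -⟩ | ⟨h1, -⟩
  · rw [← h1]; exact ls_mem_sites (be_mem hq hD _)
  · rw [← h1]; exact rs_mem_sites (be_mem hq hD _)

variable (S : Se q D m r1 R1 R ω) (w : Wl q D m r1 R1 ω W y j0 u)
include S w

theorem wl_lt : y < j0 := by
  have h1 := w.y2
  have h2 := w.j1
  have h3 := S.h1
  omega

/-- The potential of the wall along the boundary. -/
theorem wl_hard {i : ℕ} (hi : i ≤ n) : u (q i) ≠ u (q 0) ↔ (y < i ∧ i ≤ j0) := by
  have h := wl_lt S w
  rw [← XDL.sep_iff S.poly S.enc w.pot (q_mem_sites S.poly S.enc i), sep_ard S.poly S.enc w.mem hi,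
    ard_xy S.poly S.enc w.mem w.xy, min_eq_right h.le, max_eq_left h.le]

/-- Open steps away from the base value. -/
theorem wl_open (hs : u s ≠ u (q 0)) (hsD : s ∈ sites D) (he : Even (s.1 + s.2))
    (h : Stp ω D s t) : u t = u s := by
  rcases h with ⟨-, h⟩ | ⟨h, -⟩
  · obtain ⟨a1, a2, a3, a4⟩ := h
    have h5 := sq_near S.flat S.h3 (w.near s hsD hs) (mem_coe.1 a4) (by simp only; omega)
    refine (pot_stp w.mem w.pot (s := s) (t := t) (Or.inl ⟨he, a1, a2, ?_, a4⟩)).symm
    show omx (q m) r1 R1 ω _ = true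
    rw [omx_true]
    by_cases h6 : (min s.1 t.1, min s.2 t.2) ∈ hbox (q m) r1
    · exact Or.inl h6
    · exact Or.inr ⟨h5, h6, a3⟩
  · exact absurd he h

/-- The open side of a strand stays inside or outside of the wall. -/
theorem wl_piece (hA : A ∈ pcs ω D) {e e' : Ed} (he : e ∈ A) (he' : e' ∈ A)
    (h : u (ls e) = u (q 0)) : u (ls e') = u (q 0) := by
  refine (piece_const (P := fun e => e ∈ A ∧ u (ls e) = u (q 0)) hA (fun e heD => ?_) he he').1
    ⟨he, h⟩ |>.2
  rw [← nx_mem_iff hA heD]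
  refine and_congr_right fun heA => ?_
  have h3 := ls_mem_sites (subset_eds hA heA)
  have h3' := ls_mem_sites (nx_mem_eds (ω := ω) heD)
  rcases ls_stp (ω := ω) heD with h4 | h4
  · rw [h4]
  · constructor
    · intro h5
      by_contra h6
      exact h6 (by rw [← wl_open S w h6 h3' (even_ls _) h4.symm]; exact h5)
    · intro h5
      by_contra h6
      exact h6 (by rw [← wl_open S w h6 h3 (even_ls _) h4]; exact h5)

/-- Edges with the base value on the left. -/
theorem wl_rs {e : Ed} (he : e ∈ eds D) (h : u (ls e) = u (q 0)) : e ∉ W ∧ u (rs e) = u (q 0) := by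
  have h1 : e ∉ W := fun h' => w.cx _ (w.ls e h') h
  exact ⟨h1, by rw [← w.pot.eq he h1]; exact h⟩

/-- Closed steps outside of the small half box. -/
theorem wl_closed (hs : ¬ Even (s.1 + s.2))
    (h : ReflTransGen (PStep {v | ω v = false ∧ v ∈ D ∧ v ∉ hbox (q m) r1}) s t) : u s = u t := by
  have key : ReflTransGen (Stp (omx (q m) r1 R1 ω) D) s t ∧ ¬ Even (t.1 + t.2) := by
    refine QB.stp_of (F := {v | ω v = false ∧ v ∈ D ∧ v ∉ hbox (q m) r1}) (fun v hv => ?_) hs h
    obtain ⟨h1, h2, h3⟩ := hv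
    refine ⟨?_, h2⟩
    unfold omx
    rw [if_neg h3]
    split_ifs
    · exact h1
    · rfl
  exact pot_reach w.mem w.pot key.1

/-- The dual side of the wall is connected. -/
theorem wl_T {e e' : Ed} (he : e ∈ W) (he' : e' ∈ W) :
    ReflTransGen (PStep {v | ω v = false ∧ v ∈ hbox (q m) R1 ∧ v ∉ hbox (q m) r1})
      (rs e) (rs e') := by
  refine (piece_const (P := fun e' => e' ∈ W ∧ ReflTransGen (PStep {v | ω v = false ∧
    v ∈ hbox (q m) R1 ∧ v ∉ hbox (q m) r1}) (rs e) (rs e')) w.mem (fun e1 heD => ?_) he he').1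
    ⟨he, ReflTransGen.refl⟩ |>.2
  rw [← nx_mem_iff w.mem heD]
  refine and_congr_right fun heA => ?_
  rcases H192.ls_nx (omx (q m) r1 R1 ω) e1 with ⟨-, -, h2, -⟩ | ⟨h1, h2, -, h3⟩
  · rw [h2]
  · have h5 := sq_near S.flat S.h3 (cx_in S.h1 S.noarm (w.ls e1 heA)) heD (cor_ls e1).1
    have h6 : ω (hdv e1) = false ∧ hdv e1 ∉ hbox (q m) r1 := by
      unfold omx at h1
      by_cases h6 : hdv e1 ∈ hbox (q m) r1
      · rw [if_pos h6] at h1
        exact absurd h1 (by simp)
      · rw [if_neg h6, if_pos h5] at h1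
        exact ⟨h1, h6⟩
    have h7 : PStep {v | ω v = false ∧ v ∈ hbox (q m) R1 ∧ v ∉ hbox (q m) r1} (rs e1)
        (rs (nx (omx (q m) r1 R1 ω) e1)) := by
      refine ⟨h2.1, h2.2.1, ?_⟩
      rw [h3]
      exact ⟨h6.1, h5, h6.2⟩
    exact ⟨fun h => h.tail h7, fun h => h.tail h7.symm⟩

/-- The dual path of the wall from foot to foot. -/
theorem wl_path : ReflTransGen (PStep {v | ω v = false ∧ v ∈ hbox (q m) R1 ∧ v ∉ hbox (q m) r1})
      (q y) (q (j0 + 1 : ℕ)) := by
  have h1 := wl_T S w w.xy.2.2.2.1 w.xy.2.2.1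
  rw [(be_odd S.poly S.enc w.xy.2.2.2.2.2).1, (be_even S.poly S.enc w.xy.2.2.2.2.1).2.1] at h1
  push_cast
  exact h1

theorem wl_odd : ¬ Even ((q (j0 + 1 : ℕ)).1 + (q (j0 + 1 : ℕ)).2) := by
  have h1 := odd_rs (be q (j0 : ZMod n))
  rw [(be_even S.poly S.enc w.xy.2.2.2.2.1).2.1] at h1
  push_cast
  exact h1

theorem wl_j0 : q j0 ∈ Cx (q m) r1 R1 ω := by
  have h1 := w.ls _ w.xy.2.2.1
  rwa [(be_even S.poly S.enc w.xy.2.2.2.2.1).1] at h1

/-- The right foot is a site of the explored set. -/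
theorem wl_foot : q (j0 + 1 : ℕ) ∈ sites (Zx (q m) r1 R1 ω) := by
  have hfs : ∀ i : ℕ, (m : ℤ) - R ≤ i → (i : ℤ) < m + R →
      q (i : ℕ) = ((q m).1 + ((i : ℤ) - m), (q m).2) := fun i k1 k2 =>
    (flat_side S.poly S.enc S.flat (by have := S.h1; have := S.h2; have := S.h3; omega) S.mn S.off
      k1 k2).1
  have h1 := S.h1
  have h2 := S.h2
  have h3 := S.h3
  have h4 := w.j1
  have h5 := w.j2
  have e1 := hfs j0 (by omega) (by omega)
  have e2 := hfs (j0 + 1) (by push_cast; omega) (by push_cast; omega)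
  refine mem_sites.2 ⟨((q m).1 + ((j0 : ℤ) - m), (q m).2), mem_Zx.2 ⟨?_, q j0, wl_j0 S w, ?_⟩, ?_⟩
  · rw [mem_hbox]
    simp only
    omega
  · rw [e1]
    exact ⟨Or.inl rfl, Or.inl rfl⟩
  · rw [e2]
    push_cast
    exact ⟨Or.inr (by ring), Or.inl rfl⟩

/-- **The indicator.** -/
theorem wl_join (hml : (m : ℤ) + R ≤ l) (hkn : k ≤ n) :
    (∃ j : ℕ, l ≤ j ∧ j ≤ k ∧
      ReflTransGen (PStep {v | ω v = false ∧ v ∈ D}) (q (j0 + 1 : ℕ)) (q j)) ↔
    Jn false (D \ Zx (q m) r1 R1 ω) ω ↑(sites (Zx (q m) r1 R1 ω))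
      {z | ∃ j : ℕ, l ≤ j ∧ j ≤ k ∧ q j = z} := by
  have h1 := S.h1
  have h2 := S.h2
  have h3 := S.h3
  have h4 := w.j1
  have h5 := w.j2
  constructor
  · rintro ⟨j, hj1, hj2, hp⟩
    have key : ∀ s, ReflTransGen (PStep {v | ω v = false ∧ v ∈ D}) s (q j) →
        (s.1 + s.2) % 2 = 1 →
        ReflTransGen (PStep (H632.cs false ω ∩ (↑(D \ Zx (q m) r1 R1 ω) : Set (ℤ × ℤ)))) s (q j) ∨
        Jn false (D \ Zx (q m) r1 R1 ω) ω ↑(sites (Zx (q m) r1 R1 ω))
          {z | ∃ j : ℕ, l ≤ j ∧ j ≤ k ∧ q j = z} := by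
      intro s hs
      induction hs using ReflTransGen.head_induction_on with
      | refl => intro _; exact Or.inl ReflTransGen.refl
      | @head s s' hss _ ih =>
        intro hodd
        have hpar : (s'.1 + s'.2) % 2 = 1 := by
          obtain ⟨a1, a2, -⟩ := hss
          omega
        rcases ih hpar with h6 | h6
        · obtain ⟨a1, a2, a3, a4⟩ := hss
          by_cases hZ : (min s.1 s'.1, min s.2 s'.2) ∈ Zx (q m) r1 R1 ω
          · refine Or.inr ⟨s', ?_, q j, ⟨j, hj1, hj2, rfl⟩, hpar, h6⟩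
            rw [mem_coe]
            exact mem_sites.2 ⟨_, hZ, by simp only; omega⟩
          · left
            refine ReflTransGen.head ⟨a1, a2, ?_, ?_⟩ h6
            · exact a3
            · rw [mem_coe, mem_sdiff]
              exact ⟨a4, hZ⟩
        · exact Or.inr h6
    have hodd := wl_odd S w
    rw [Int.even_iff] at hodd
    rcases key _ hp (by omega) with h6 | h6
    · exact ⟨_, mem_coe.2 (wl_foot S w), q j, ⟨j, hj1, hj2, rfl⟩, by
        show _ = (1 : ℤ)
        omega, h6⟩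
    · exact h6
  · rintro ⟨u1, hu1, t, ⟨j, hj1, hj2, rfl⟩, hpar, hp⟩
    have hpar' : (u1.1 + u1.2) % 2 = 1 := hpar
    have hodd : ¬ Even (u1.1 + u1.2) := by
      rw [Int.even_iff]
      omega
    rw [mem_coe, mem_sites] at hu1
    obtain ⟨v, hv, hc⟩ := hu1
    obtain ⟨hvR, s, hsC, hsv⟩ := mem_Zx.1 hv
    have hlow := Zx_low (b := q m) (ω := ω) h2.le
    have hp' : ReflTransGen (PStep {v | ω v = false ∧ v ∈ D ∧ v ∉ hbox (q m) r1}) u1 (q j) := by
      refine ReflTransGen.mono (fun x y h => ⟨h.1, h.2.1, ?_⟩) _ _ hp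
      obtain ⟨-, -, a1, a2⟩ := h
      rw [mem_coe, mem_sdiff] at a2
      exact ⟨a1, a2.1, fun h' => a2.2 (hlow h')⟩
    have e1 := wl_closed S w hodd hp'
    have e2 : u (q j) = u (q 0) := by
      by_contra hc'
      have := (wl_hard S w (hj2.trans hkn)).1 hc'
      omega
    obtain ⟨e, he1, he2, he3⟩ := exists_ed (cx_even hsC) hodd hsv hc
    have hvD : v ∈ D := hbox_sub (S.flat.mono (show R1 ≤ R by omega)) hvR
    have heD : e ∈ eds D := by
      rw [mem_eds]
      rcases he3 with h6 | h6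
      · left; rw [h6]; exact hvD
      · right; rw [h6]; exact hvD
    have heW : e ∈ W := by
      by_contra hc'
      have h6 := w.pot.eq heD hc'
      rw [he1, he2, e1, e2] at h6
      exact w.cx s hsC h6
    have h7 := wl_T S w w.xy.2.2.1 heW
    rw [(be_even S.poly S.enc w.xy.2.2.2.2.1).2.1, he2] at h7
    refine ⟨j, hj1, hj2, ?_⟩
    push_cast
    refine ReflTransGen.trans (b := u1) (ReflTransGen.mono (fun x y h => ⟨h.1, h.2.1, ?_⟩) _ _ h7)
      (ReflTransGen.mono (fun x y h => ⟨h.1, h.2.1, ?_⟩) _ _ hp')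
    · obtain ⟨-, -, a1, a2, -⟩ := h
      exact ⟨a1, hbox_sub (S.flat.mono (show R1 ≤ R by omega)) a2⟩
    · obtain ⟨-, -, a1, a2, -⟩ := h
      exact ⟨a1, a2⟩

omit S w in
/-- The local form: strands at the open cluster. -/
def GIz (b : ℤ × ℤ) (r r1 R1 : ℤ) (ω : Cfg) (A : Finset Ed) : Prop :=
  (∀ e ∈ A, ls e ∈ Cx b r1 R1 ω) ∧ Sep (hbox b R1) A b (top b R1) ∧ ¬ Vz (hbox b r) A

omit S w in
open Classical in
/-- The local state function of the explored set. -/
noncomputable def GZ (θ : ℝ) (b : ℤ × ℤ) (r r1 R1 : ℤ) (ω : Cfg) : ℝ :=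
  if (∀ A ∈ pcs ω (hbox b R1), ¬ GIz b r r1 R1 ω A) then 1
  else if (∃ A ∈ pcs ω (hbox b R1), GIz b r r1 R1 ω A ∧ ¬ LeftIn b A ∧
    ∀ B ∈ pcs ω (hbox b R1), GIz b r r1 R1 ω B → B = A) then
    (4 * Real.cos θ ^ 2 - 1) / (4 * Real.cos θ ^ 2) else 0

/-- If the wall is joined to the free arc, the strands around `q m` are at the open cluster. -/
theorem gi_giz (hml : (m : ℤ) + R ≤ l) (hkn : k ≤ n)
    (hJ : ∃ j : ℕ, l ≤ j ∧ j ≤ k ∧
      ReflTransGen (PStep {v | ω v = false ∧ v ∈ D}) (q (j0 + 1 : ℕ)) (q j))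
    (hA : A ∈ pcs ω (hbox (q m) R1)) : GI (q m) r R1 A ↔ GIz (q m) r r1 R1 ω A := by
  have h1 := S.h1
  have h2 := S.h2
  have h3 := S.h3
  have w1 := w.y1
  have w2 := w.y2
  have w3 := w.j1
  have w4 := w.j2
  have hF : Flt D (q m) R1 := S.flat.mono (by omega)
  have h0 : q 0 ∉ sites (hbox (q m) R1) := fun h' => S.off (sites_mono (hbox_mono (by omega)) h')
  have hms : q m ∈ sites (hbox (q m) R1) := by
    rw [mem_sites_hbox (by omega)]
    omega
  have hup : ∀ v ∈ hbox (q m) R1, (q m).2 ≤ v.2 := fun v hv => hbox_up hv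
  constructor
  · rintro ⟨hI, hS, hV⟩
    refine ⟨?_, hS, hV⟩
    by_contra hcon
    push Not at hcon
    have hnc : ∀ e ∈ A, ls e ∉ Cx (q m) r1 R1 ω := by
      intro e he h
      obtain ⟨e', he', h'⟩ := hcon
      exact h' (cx_piece h1 S.noarm hup hA he he' h)
    have hAD := pcs_of_inn hF hA hI
    have hE : ∀ e ∈ A, e ∈ eds (hbox (q m) R1) := fun e he => subset_eds hA he
    have ha : Ard q m A := (sep_ard S.poly S.enc hAD S.mn.le).1
      ((sep_inn S.poly S.enc hF (by omega) S.mn h0 hAD hE hI hms).2 hS)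
    have hl' : ¬ IsLp D A := fun h => ard_lp S.poly S.enc hAD h ha
    obtain ⟨x, y', h⟩ := exists_xy S.poly S.enc hAD hl'
    have hlo := lo_xy S.poly S.enc hAD h
    have hhi := hi_xy S.poly S.enc hAD h
    have hloA : be q (lo q A) ∈ A := by
      rw [hlo]
      rcases le_total x y' with h6 | h6
      · rw [min_eq_left h6]; exact h.2.2.1
      · rw [min_eq_right h6]; exact h.2.2.2.1
    have hhiA : be q (hi q A) ∈ A := by
      rw [hhi]
      rcases le_total x y' with h6 | h6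
      · rw [max_eq_right h6]; exact h.2.2.2.1
      · rw [max_eq_left h6]; exact h.2.2.1
    have hin : hi q A < n := by
      rw [hhi]
      exact max_lt h.1 h.2.1
    have hlin : lo q A < n := by
      rw [hlo]
      exact (min_le_left _ _).trans_lt h.1
    have bhi := bd_inn S.poly S.enc hF (by omega) S.mn h0 hin (hE _ hhiA) (hI _ hhiA)
    obtain ⟨uA, huA⟩ := exists_pot S.poly S.enc hAD
    have ha' := ha
    unfold Ard at ha'
    -- the sites of a side of the boundary
    have hside : ∀ i : ℕ, (ls (be q (i : ZMod n)) = q i ∧ rs (be q (i : ZMod n)) = q (i + 1 : ℕ)) ∨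
        (ls (be q (i : ZMod n)) = q (i + 1 : ℕ) ∧ rs (be q (i : ZMod n)) = q i) := by
      intro i
      push_cast
      rcases be_sides S.poly (i : ZMod n) with ⟨a1, a2⟩ | ⟨a1, a2⟩
      · exact Or.inl ⟨a1, a2⟩
      · exact Or.inr ⟨a2, a1⟩
    by_cases hu : u (ls (be q (lo q A : ZMod n))) = u (q 0)
    · -- outside of the wall
      have hval : ∀ e ∈ A, u (ls e) = u (q 0) ∧ u (rs e) = u (q 0) := by
        intro e he
        have h6 := wl_piece S w hAD hloA he hu
        exact ⟨h6, (wl_rs S w (subset_eds hAD he) h6).2⟩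
      have hbd : ∀ i : ℕ, be q (i : ZMod n) ∈ A → u (q i) = u (q 0) ∧
          u (q (i + 1 : ℕ)) = u (q 0) := by
        intro i hi
        have h6 := hval _ hi
        rcases hside i with ⟨a1, a2⟩ | ⟨a1, a2⟩ <;> rw [a1, a2] at h6
        · exact h6
        · exact h6.symm
      have e1 := hbd _ hloA
      have e2 := hbd _ hhiA
      have f1 : ¬ (y < lo q A + 1 ∧ lo q A + 1 ≤ j0) := fun h' =>
        (wl_hard S w (by omega)).2 h' e1.2
      have f2 : ¬ (y < hi q A ∧ hi q A ≤ j0) := fun h' =>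
        (wl_hard S w (by omega)).2 h' e2.1
      have hj : Ard q (j0 + 1) A := by
        unfold Ard
        omega
      obtain ⟨j, hj1, hj2, hj3⟩ := hJ
      have hst := (QB.stp_of (D := D) (F := {v | ω v = false ∧ v ∈ D}) (fun v hv => hv)
        (wl_odd S w) hj3).1
      have := (ard_iff_of_eq S.poly S.enc hAD huA (by omega) (by omega)
        (pot_reach hAD huA hst)).1 hj
      unfold Ard at this
      omega
    · -- inside of the wall
      have hval : ∀ e ∈ A, u (ls e) ≠ u (q 0) := by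
        intro e he h6
        exact hu (wl_piece S w hAD he hloA h6)
      have hbd : ∀ i : ℕ, i < n → be q (i : ZMod n) ∈ A → (y < i ∧ i ≤ j0) ∨
          (y < i + 1 ∧ i + 1 ≤ j0) := by
        intro i hin hi
        have h6 := hval _ hi
        rcases hside i with ⟨a1, a2⟩ | ⟨a1, a2⟩ <;> rw [a1] at h6
        · exact Or.inl ((wl_hard S w hin.le).1 h6)
        · exact Or.inr ((wl_hard S w (by omega)).1 h6)
      have e2 := hbd _ hin hhiA
      have hne : hi q A ≠ j0 := by
        intro h6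
        rw [h6] at hhiA
        refine hnc _ hhiA ?_
        rw [(be_even S.poly S.enc w.xy.2.2.2.2.1).1]
        exact wl_j0 S w
      have hVr : ¬ Vz (hbox (q m) r1) A := by
        rintro ⟨e, he, h6⟩
        exact hnc e he (cx_base (ls_mem_sites h6) (even_ls e))
      -- the potential of `A` on the cluster
      have hAx : A ∈ pcs (omx (q m) r1 R1 ω) D := by
        refine mem_pcs_congr hAD fun e he heD => ?_
        have h6 : hdv e ∈ hbox (q m) R1 := (hI e he).mem_hd hF (hE e he) heD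
        have h7 : hdv e ∉ hbox (q m) r1 := fun h' => hVr ⟨e, he, mem_eds.2 (Or.inl h')⟩
        unfold omx
        rw [if_neg h7, if_pos h6]
      obtain ⟨i, hi1, hi2⟩ : ∃ i : ℕ, (i = m ∨ i = m + 1) ∧ q (i : ℕ) ∈ Cx (q m) r1 R1 ω ∧
          (i : ℤ) ≤ m + r1 := by
        have hfs : ∀ i : ℕ, (m : ℤ) - R ≤ i → (i : ℤ) < m + R →
            q (i : ℕ) = ((q m).1 + ((i : ℤ) - m), (q m).2) := fun i k1 k2 =>
          (flat_side S.poly S.enc S.flat (by omega) S.mn S.off k1 k2).1
        by_cases hp : Even ((q m).1 + (q m).2)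
        · refine ⟨m, Or.inl rfl, cx_base ?_ hp, by omega⟩
          rw [mem_sites_hbox h1]
          omega
        · refine ⟨m + 1, Or.inr rfl, cx_base ?_ ?_, by push_cast; omega⟩
          · rw [hfs (m + 1) (by push_cast; omega) (by push_cast; omega), mem_sites_hbox h1]
            simp only
            push_cast
            omega
          · rw [hfs (m + 1) (by push_cast; omega) (by push_cast; omega)]
            rw [Int.even_iff] at *
            simp only
            push_cast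
            omega
      have hcc : uA (q i) = uA (q j0) := by
        refine pot_reach hAx huA ((reach_iff (c := true) ?_).2 ?_)
        · have := cx_even hi2.1
          rw [Int.even_iff] at this
          rw [this]
          rfl
        · refine ReflTransGen.mono ?_ _ _ (cx_conn h1 hi2.1 (wl_j0 S w))
          intro x y h
          refine ⟨h.1, h.2.1, omx_true.2 h.2.2, ?_⟩
          rcases h.2.2 with h4 | ⟨h4, -, -⟩
          · exact hbox_sub (S.flat.mono (show r1 ≤ R by omega)) h4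
          · exact hbox_sub (S.flat.mono (show R1 ≤ R by omega)) h4
      have hmi : uA (q m) = uA (q i) := by
        rcases hi1 with rfl | rfl
        · rfl
        · -- the side `m` is not in `A`
          have hmA : be q (m : ZMod n) ∉ A := fun h' => hVr ⟨_, h',
            (QB.side_hbox S.poly S.enc (S.flat.mono (show r1 ≤ R by omega)) h1 S.mn
              (fun h' => S.off (sites_mono (hbox_mono (by omega)) h')) (j := m) (by omega)
              (by omega)).1⟩
          have h6 := huA.eq (be_mem S.poly S.enc (m : ZMod n)) hmA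
          rcases hside m with ⟨a1, a2⟩ | ⟨a1, a2⟩ <;> rw [a1, a2] at h6
          · exact h6
          · exact h6.symm
      have := (ard_iff_of_eq S.poly S.enc hAD huA (by omega) (by omega)
        (hmi.trans hcc)).1 ha
      unfold Ard at this
      omega
  · rintro ⟨hC, hS, hV⟩
    refine ⟨fun e he => ?_, hS, hV⟩
    exact (inn_near S.flat h3 (eds_mono (hbox_sub hF) (subset_eds hA he))
      (cx_in h1 S.noarm (hC e he)) (cor_ls e).1 (cor_ls e).2).2

open Classical in
/-- **The state function off the open arm.** -/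
theorem stf_wl (hr : 1 ≤ r) (hrr : r ≤ r1) (hml : (m : ℤ) + R ≤ l) (hlk : l < k) (hkn : k ≤ n)
    (θ : ℝ) : Stf θ q D (hbox (q m) r) k m l ω = GZ θ (q m) r r1 R1 ω *
      (if Jn false (D \ Zx (q m) r1 R1 ω) ω ↑(sites (Zx (q m) r1 R1 ω))
        {z | ∃ j : ℕ, l ≤ j ∧ j ≤ k ∧ q j = z} then 1 else 0) := by
  have h1 := S.h1
  have h2 := S.h2
  have h3 := S.h3
  have w1 := w.y1
  have w2 := w.y2
  have w3 := w.j1
  have w4 := w.j2
  have hF : Flt D (q m) R1 := S.flat.mono (by omega)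
  have h0 : q 0 ∉ sites (hbox (q m) R1) := fun h' => S.off (sites_mono (hbox_mono (by omega)) h')
  have hT : ReflTransGen (PStep {v | ω v = false ∧ v ∈ hbox (q m) R1 ∧ v ∉ hbox (q m) r})
      (q y) (q (j0 + 1 : ℕ)) := by
    refine ReflTransGen.mono (fun x y h => ⟨h.1, h.2.1, ?_⟩) _ _ (wl_path S w)
    obtain ⟨-, -, a1, a2, a3⟩ := h
    exact ⟨a1, a2, fun h' => a3 (hbox_mono hrr h')⟩
  rw [stfCirc S.poly S.enc hF (by omega) S.mn h0 hr (by omega) (by omega) (by omega)
    (by push_cast; omega) (by push_cast; omega) (by omega) hlk hkn (wl_odd S w) hT θ,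
    if_congr (wl_join S w hml hkn) rfl rfl]
  by_cases hJ : Jn false (D \ Zx (q m) r1 R1 ω) ω ↑(sites (Zx (q m) r1 R1 ω))
      {z | ∃ j : ℕ, l ≤ j ∧ j ≤ k ∧ q j = z}
  · rw [if_pos hJ, mul_one, mul_one]
    have key : ∀ A ∈ pcs ω (hbox (q m) R1), GI (q m) r R1 A ↔ GIz (q m) r r1 R1 ω A := fun A hA =>
      gi_giz S w hml hkn ((wl_join S w hml hkn).2 hJ) hA
    unfold Gin GZ
    have k1 : (∀ A ∈ pcs ω (hbox (q m) R1), ¬ GI (q m) r R1 A) ↔
        (∀ A ∈ pcs ω (hbox (q m) R1), ¬ GIz (q m) r r1 R1 ω A) :=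
      forall₂_congr fun A hA => not_congr (key A hA)
    have k2 : (∃ A ∈ pcs ω (hbox (q m) R1), GI (q m) r R1 A ∧ ¬ LeftIn (q m) A ∧
        ∀ B ∈ pcs ω (hbox (q m) R1), GI (q m) r R1 B → B = A) ↔
        (∃ A ∈ pcs ω (hbox (q m) R1), GIz (q m) r r1 R1 ω A ∧ ¬ LeftIn (q m) A ∧
        ∀ B ∈ pcs ω (hbox (q m) R1), GIz (q m) r r1 R1 ω B → B = A) := by
      constructor
      · rintro ⟨A, hA, hG, hL, hu⟩
        exact ⟨A, hA, (key A hA).1 hG, hL, fun B hB hGB => hu B hB ((key B hB).2 hGB)⟩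
      · rintro ⟨A, hA, hG, hL, hu⟩
        exact ⟨A, hA, (key A hA).2 hG, hL, fun B hB hGB => hu B hB ((key B hB).1 hGB)⟩
    rw [if_congr k1 rfl rfl, if_congr k2 rfl rfl]
  · rw [if_neg hJ, mul_zero, mul_zero]

omit w in
open Classical in
/-- **The state function off the open arm.** -/
theorem stf_zx (hr : 1 ≤ r) (hrr : r ≤ r1) (hml : (m : ℤ) + R ≤ l) (hlk : l < k) (hkn : k ≤ n)
    (θ : ℝ) : Stf θ q D (hbox (q m) r) k m l ω = GZ θ (q m) r r1 R1 ω *
      (if Jn false (D \ Zx (q m) r1 R1 ω) ω ↑(sites (Zx (q m) r1 R1 ω))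
        {z | ∃ j : ℕ, l ≤ j ∧ j ≤ k ∧ q j = z} then 1 else 0) := by
  obtain ⟨W, y, j0, u, w⟩ := exists_wall S
  exact stf_wl S w hr hrr hml hlk hkn θ

end Vale.Agent.P167.H640.CZ
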