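import Vale.Agent.P167.H640.CZ.Main

/-!
# P167, general `q`, block BRQ (A): the functional off the open arm

`circ_sum`: off the event of an open arm in the half annulus from `r1` to `R1`, the functional with the
bump `f` at `q m` and the point charge at `q l` is a linear combination of the indicators
`fzx D Z ζ T` over admissible pairs `(Z, ζ)`; the coefficients depend only on the pair.
-/

namespace Vale.Agent.P167.H640.CZ

open Finset Relation Vale.Agent.P167 Vale.Agent.P167.BR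
open Vale.Agent.P145.FB (PStep)
open Vale.Agent.P167.QB (ha HArm LeftIn Stf FL XG dlt sgm wL slc)
open Vale.Agent.P167.E6 (IsPolygon Encloses dir face)

variable {b : ℤ × ℤ} {r r1 R1 R : ℤ} {ω ω' : Cfg} {D : Finset (ℤ × ℤ)} {A W : Finset Ed}
  {s t v : ℤ × ℤ} {n m k l : ℕ} {q : ZMod n → ℤ × ℤ} {θ : ℝ} {σ : ℤ} {f : ℤ × ℤ → ℝ}

/-! ### locality -/

theorem giz_imp (h1 : 1 ≤ r1) (hH : ¬ HArm b r1 R1 ω)
    (h : ∀ v ∈ Zx b r1 R1 ω, ω v = ω' v) (hA : A ∈ pcs ω (hbox b R1))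
    (hG : GIz b r r1 R1 ω A) : A ∈ pcs ω' (hbox b R1) ∧ GIz b r r1 R1 ω' A := by
  refine ⟨mem_pcs_congr hA fun e he heD => h _ ?_, ?_, hG.2⟩
  · exact cx_hdv h1 hH (fun v hv => hbox_up hv) (hG.1 e he) heD
  · rw [← Cx_congr h]
    exact hG.1

theorem GZ_congr (h1 : 1 ≤ r1) (h2 : r1 < R1) (hH : ¬ HArm b r1 R1 ω)
    (h : ∀ v ∈ Zx b r1 R1 ω, ω v = ω' v) : GZ θ b r r1 R1 ω = GZ θ b r r1 R1 ω' := by
  classical
  have hH' := noarm_congr h1 h2 h hH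
  have h' : ∀ v ∈ Zx b r1 R1 ω', ω' v = ω v := by
    rw [← Zx_congr h]
    exact fun v hv => (h v hv).symm
  have key : ∀ A, (A ∈ pcs ω (hbox b R1) ∧ GIz b r r1 R1 ω A) ↔
      (A ∈ pcs ω' (hbox b R1) ∧ GIz b r r1 R1 ω' A) := fun A =>
    ⟨fun hA => giz_imp h1 hH h hA.1 hA.2, fun hA => giz_imp h1 hH' h' hA.1 hA.2⟩
  unfold GZ
  have k1 : (∀ A ∈ pcs ω (hbox b R1), ¬ GIz b r r1 R1 ω A) ↔
      (∀ A ∈ pcs ω' (hbox b R1), ¬ GIz b r r1 R1 ω' A) :=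
    ⟨fun h A hA hG => h A ((key A).2 ⟨hA, hG⟩).1 ((key A).2 ⟨hA, hG⟩).2,
      fun h A hA hG => h A ((key A).1 ⟨hA, hG⟩).1 ((key A).1 ⟨hA, hG⟩).2⟩
  have k2 : (∃ A ∈ pcs ω (hbox b R1), GIz b r r1 R1 ω A ∧ ¬ LeftIn b A ∧
      ∀ B ∈ pcs ω (hbox b R1), GIz b r r1 R1 ω B → B = A) ↔
      (∃ A ∈ pcs ω' (hbox b R1), GIz b r r1 R1 ω' A ∧ ¬ LeftIn b A ∧
      ∀ B ∈ pcs ω' (hbox b R1), GIz b r r1 R1 ω' B → B = A) := by
    constructor
    · rintro ⟨A, hA, hG, hL, hu⟩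
      obtain ⟨a1, a2⟩ := (key A).1 ⟨hA, hG⟩
      exact ⟨A, a1, a2, hL, fun B hB hGB =>
        hu B ((key B).2 ⟨hB, hGB⟩).1 ((key B).2 ⟨hB, hGB⟩).2⟩
    · rintro ⟨A, hA, hG, hL, hu⟩
      obtain ⟨a1, a2⟩ := (key A).2 ⟨hA, hG⟩
      exact ⟨A, a1, a2, hL, fun B hB hGB =>
        hu B ((key B).1 ⟨hB, hGB⟩).1 ((key B).1 ⟨hB, hGB⟩).2⟩
  rw [if_congr k1 rfl rfl, if_congr k2 rfl rfl]

theorem vis_imp (h1 : 1 ≤ r1) (hH : ¬ HArm b r1 R1 ω) (hr : r ≤ r1)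
    (h : ∀ v ∈ Zx b r1 R1 ω, ω v = ω' v) (hA : A ∈ pcs ω (hbox b R))
    (hV : Vz (hbox b r) A) : A ∈ pcs ω' (hbox b R) ∧ Vz (hbox b r) A := by
  refine ⟨mem_pcs_congr hA fun e he heD => h _ ?_, hV⟩
  exact cx_hdv h1 hH (fun v hv => hbox_up hv) (cx_vis h1 hH (fun v hv => hbox_up hv) hr hA hV he) heD

theorem iso_noarm (hr : 0 ≤ r) (h1 : r + 2 ≤ r1) (h2 : r1 ≤ R1) (hH : ¬ HArm b r1 R1 ω) :
    Iso b r (R1 + 2) ω := by
  by_contra hc
  exact hH (QB.harm_of_not_iso hr h1 h2 le_rfl hc)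

theorem FL_congr' (hr : 0 ≤ r) (h1 : r + 2 ≤ r1) (h2 : r1 < R1) (hH : ¬ HArm b r1 R1 ω)
    (h : ∀ v ∈ Zx b r1 R1 ω, ω v = ω' v) :
    FL θ b r (R1 + 2) σ f ω = FL θ b r (R1 + 2) σ f ω' := by
  classical
  have h1' : 1 ≤ r1 := by omega
  have hH' := noarm_congr h1' h2 h hH
  have h' : ∀ v ∈ Zx b r1 R1 ω', ω' v = ω v := by
    rw [← Zx_congr h]
    exact fun v hv => (h v hv).symm
  unfold FL
  rw [if_pos (iso_noarm hr h1 h2.le hH), if_pos (iso_noarm hr h1 h2.le hH')]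
  have key : (pcs ω (hbox b (R1 + 2))).filter (Vz (hbox b r)) =
      (pcs ω' (hbox b (R1 + 2))).filter (Vz (hbox b r)) := by
    ext A
    rw [mem_filter, mem_filter]
    exact ⟨fun hA => vis_imp h1' hH (by omega) h hA.1 hA.2,
      fun hA => vis_imp h1' hH' (by omega) h' hA.1 hA.2⟩
  rw [key]

/-! ### the sum over the explored pairs -/

open Classical in
/-- The configuration with the open squares `S`. -/
noncomputable def chi (S : Finset (ℤ × ℤ)) : Cfg := fun v => decide (v ∈ S)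

open Classical in
/-- The indices: the explored set and its open squares. -/
noncomputable def Idx (b : ℤ × ℤ) (r1 R1 : ℤ) : Finset (Finset (ℤ × ℤ) × Finset (ℤ × ℤ)) :=
  ((hbox b R1).powerset ×ˢ (hbox b R1).powerset).filter fun p =>
    p.2 ⊆ p.1 ∧ Zx b r1 R1 (chi p.2) = p.1 ∧ ¬ HArm b r1 R1 (chi p.2)

open Classical in
/-- The indicator of `ω = ζ` on `Z` and `Z` joined to `T` by a dual path of `D \ Z`. -/
noncomputable def fzx (D Z : Finset (ℤ × ℤ)) (ζ : Cfg) (T : Set (ℤ × ℤ)) (ω : Cfg) : ℝ :=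
  if (∀ v ∈ Z, ω v = ζ v) ∧ Jn false (D \ Z) ω (sites Z) T then 1 else 0

/-- The pairs are admissible. -/
theorem idx_adm (h1 : 1 ≤ r1) (h2 : r1 ≤ R1) {p : Finset (ℤ × ℤ) × Finset (ℤ × ℤ)}
    (hp : p ∈ Idx b r1 R1) : hbox b r1 ⊆ p.1 ∧ p.1 ⊆ hbox b R1 ∧
      ∀ v ∈ p.1, ∀ w : ℤ × ℤ, w ∉ p.1 → b.2 ≤ w.2 →
        (∃ s ∈ sites {v}, s ∈ sites {w} ∧ Even (s.1 + s.2)) → chi p.2 v = false := by
  classical
  unfold Idx at hp
  rw [mem_filter] at hp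
  obtain ⟨-, -, hp1, hp2⟩ := hp
  rw [← hp1]
  refine ⟨Zx_low h2, Zx_sub, ?_⟩
  rintro v hv w hw hw2 ⟨s, hs, hs', he⟩
  exact Zx_sld h1 hp2 hv hw hw2 (mem_sites_one.1 hs) (mem_sites_one.1 hs') he

/-- The coefficients. -/
noncomputable def cof (θ : ℝ) (b : ℤ × ℤ) (r r1 R1 : ℤ) (f : ℤ × ℤ → ℝ)
    (p : Finset (ℤ × ℤ) × Finset (ℤ × ℤ)) : ℝ :=
  FL θ b r (R1 + 2) 1 f (chi p.2) * GZ θ b r r1 R1 (chi p.2)

open Classical in
/-- **(A) in the form with `Z`.** -/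
theorem circ_sum (h0t : 0 < θ) (h1t : θ ≤ Real.pi / 3) (hq : IsPolygon q) (hD : Encloses q D)
    (hF : Flt D (q m) R) (hm : m < n) (h0 : q 0 ∉ sites (hbox (q m) R)) (h1 : 1 ≤ r)
    (h2 : r + 2 ≤ r1) (h3 : r1 < R1) (h4 : R1 + 2 ≤ R) (hml : (m : ℤ) + R ≤ l) (hlk : l < k)
    (hkn : k ≤ n) (hf : ∀ z, f z ≠ 0 → z ∈ sites (hbox (q m) r)) (hs : ∑ᶠ z, f z = θ) (ω : Cfg) :
    (if HArm (q m) r1 R1 ω then 0 else XG θ q D k (fun z => f z - dlt (q l) θ z) ω) =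
      (2 * Real.cos θ) ^ (sgm q l - sgm q m) * ∑ p ∈ Idx (q m) r1 R1,
        cof θ (q m) r r1 R1 f p *
          fzx D p.1 (chi p.2) {z | ∃ j : ℕ, l ≤ j ∧ j ≤ k ∧ q j = z} ω := by
  have h1' : 1 ≤ r1 := by omega
  have hmem : ∀ p ∈ Idx (q m) r1 R1, p.2 ⊆ p.1 ∧ Zx (q m) r1 R1 (chi p.2) = p.1 ∧
      ¬ HArm (q m) r1 R1 (chi p.2) := by
    intro p hp
    unfold Idx at hp
    exact (mem_filter.1 hp).2
  by_cases hH : HArm (q m) r1 R1 ω
  · rw [if_pos hH, sum_eq_zero, mul_zero]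
    intro p hp
    obtain ⟨p1, p2, p3⟩ := hmem p hp
    unfold fzx
    rw [if_neg, mul_zero]
    rintro ⟨h5, -⟩
    refine noarm_congr h1' h3 (fun v hv => ?_) p3 hH
    rw [p2] at hv
    exact (h5 v hv).symm
  · rw [if_neg hH]
    have hI := iso_noarm (by omega : (0 : ℤ) ≤ r) h2 h3.le hH
    have S : Se q D m r1 R1 R ω := ⟨hq, hD, hF, hm, h0, h1', h3, h4, hH⟩
    rw [QB.factD h0t h1t n q D hq hD k m l hlk hkn r (R1 + 2) h1 (by omega) (hF.mono (by omega))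
      (fun h' => h0 (sites_mono (hbox_mono (by omega)) h')) (by omega) f hf hs ω hI,
      stf_zx S h1 (by omega) hml hlk hkn θ, mul_assoc]
    congr 1
    set Z := Zx (q m) r1 R1 ω with hZ
    set T := Z.filter fun v => ω v = true with hT
    have hchi : ∀ v ∈ Z, ω v = chi T v := by
      intro v hv
      unfold chi
      by_cases h5 : ω v = true
      · rw [h5, decide_eq_true (mem_filter.2 ⟨hv, h5⟩)]
      · rw [show decide (v ∈ T) = false from decide_eq_false (fun h6 => h5 (mem_filter.1 h6).2)]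
        simpa using h5
    have hpair : (Z, T) ∈ Idx (q m) r1 R1 := by
      unfold Idx
      rw [mem_filter, mem_product, mem_powerset, mem_powerset]
      exact ⟨⟨Zx_sub, (filter_subset _ _).trans Zx_sub⟩, filter_subset _ _,
        (Zx_congr hchi).symm, noarm_congr h1' h3 hchi hH⟩
    rw [sum_eq_single_of_mem (Z, T) hpair]
    · unfold cof fzx
      simp only
      rw [← FL_congr' (by omega) h2 h3 hH hchi, ← GZ_congr h1' h3 hH hchi, mul_assoc]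
      congr 2
      refine if_congr ?_ rfl rfl
      exact ⟨fun h5 => ⟨hchi, h5⟩, fun h5 => h5.2⟩
    · intro p hp hne
      obtain ⟨p1, p2, p3⟩ := hmem p hp
      unfold fzx
      rw [if_neg, mul_zero]
      rintro ⟨h5, -⟩
      apply hne
      have e1 : Z = p.1 := by
        rw [hZ, ← p2]
        refine (Zx_congr fun v hv => ?_).symm
        rw [p2] at hv
        exact (h5 v hv).symm
      refine Prod.ext e1.symm ?_
      ext v
      rw [hT, mem_filter, e1]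
      constructor
      · intro hv
        refine ⟨p1 hv, ?_⟩
        rw [h5 v (p1 hv)]
        exact decide_eq_true hv
      · rintro ⟨hv, h6⟩
        rw [h5 v hv] at h6
        exact of_decide_eq_true h6

end Vale.Agent.P167.H640.CZ
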