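import Vale.Agent.P167.QB.FactD
import Vale.Agent.P167.QB.Pr1
import Vale.Agent.P167.H640.ND.Cls
import Vale.Agent.P167.XDL.Pot

/-!
# P167, general `q`, block BRQ (A): the wall around the open cluster of a half box

`Cx b r1 R1 ω`: even sites joined to the half box of radius `r1` by open squares of the half annulus.
If there is no open arm (`¬ HArm b r1 R1 ω`) the outer boundary of this cluster is a strand `W` of the
configuration `omx` (open in the half box, closed outside of the half box of radius `R1`).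
-/

namespace Vale.Agent.P167.H640.CZ

open Finset Relation Vale.Agent.P167 Vale.Agent.P167.BR
open Vale.Agent.P145.FB (PStep)
open Vale.Agent.P167.QB (ha HArm Ard sep_ard ard_lp ard_xy flat_side)
open Vale.Agent.P167.QX (lo hi exists_xy lo_xy hi_xy)
open Vale.Agent.P167.H718 (IsXY)
open Vale.Agent.P167.E6 (IsPolygon Encloses dir face)
open Vale.Agent.P167.H436.ND (Zg)
open Vale.Agent.P167.H640.ND (mem_sites_Zg econ_Zg zone_sub)

variable {b : ℤ × ℤ} {r r1 R1 R : ℤ} {ω ω' : Cfg} {D : Finset (ℤ × ℤ)} {A : Finset Ed}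
  {s t : ℤ × ℤ}

/-- The even sites joined to the half box of radius `r1` by open squares of the half annulus. -/
def Cx (b : ℤ × ℤ) (r1 R1 : ℤ) (ω : Cfg) : Set (ℤ × ℤ) :=
  {s | ∃ u ∈ sites (hbox b r1), Even (u.1 + u.2) ∧ ReflTransGen (PStep (ha b r1 R1 ω)) u s}

/-- The open squares with the half box filled. -/
def Fx (b : ℤ × ℤ) (r1 R1 : ℤ) (ω : Cfg) : Set (ℤ × ℤ) := {w | w ∈ hbox b r1 ∨ w ∈ ha b r1 R1 ω}

/-- Open in the half box, closed outside of the large half box. -/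
noncomputable def omx (b : ℤ × ℤ) (r1 R1 : ℤ) (ω : Cfg) : Cfg := fun v =>
  if v ∈ hbox b r1 then true else if v ∈ hbox b R1 then ω v else false

theorem omx_true {w : ℤ × ℤ} : omx b r1 R1 ω w = true ↔ w ∈ Fx b r1 R1 ω := by
  unfold omx Fx ha
  simp only [Set.mem_ofPred_eq]
  by_cases h1 : w ∈ hbox b r1 <;> by_cases h2 : w ∈ hbox b R1 <;> simp [h1, h2]

theorem even_path {F : Set (ℤ × ℤ)} (h : ReflTransGen (PStep F) s t) :
    (t.1 + t.2) % 2 = (s.1 + s.2) % 2 := by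
  induction h with
  | refl => rfl
  | tail _ h ih =>
    obtain ⟨h1, h2, -⟩ := h
    omega

theorem cx_even (h : s ∈ Cx b r1 R1 ω) : Even (s.1 + s.2) := by
  obtain ⟨u, -, h1, h2⟩ := h
  have := even_path h2
  rw [Int.even_iff] at *
  omega

theorem cx_base (hs : s ∈ sites (hbox b r1)) (he : Even (s.1 + s.2)) : s ∈ Cx b r1 R1 ω :=
  ⟨s, hs, he, ReflTransGen.refl⟩

/-- The square of a step is at its two sites. -/
theorem step_corner {F : Set (ℤ × ℤ)} (h : PStep F s t) : ∃ w ∈ F, ((s.1 = w.1 ∨ s.1 = w.1 + 1) ∧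
    (s.2 = w.2 ∨ s.2 = w.2 + 1)) ∧ ((t.1 = w.1 ∨ t.1 = w.1 + 1) ∧ (t.2 = w.2 ∨ t.2 = w.2 + 1)) := by
  obtain ⟨h1, h2, h3⟩ := h
  refine ⟨_, h3, ?_⟩
  simp only
  omega

theorem cx_step (hs : s ∈ Cx b r1 R1 ω) (h : PStep (Fx b r1 R1 ω) s t) : t ∈ Cx b r1 R1 ω := by
  have he := cx_even hs
  have h0 := h
  obtain ⟨h1, h2, h3 | h3⟩ := h
  · obtain ⟨w, hw, c1, c2⟩ := step_corner h0
    refine cx_base (mem_sites.2 ⟨_, h3, ?_⟩) ?_
    · simp only
      omega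
    · rw [Int.even_iff] at *
      omega
  · obtain ⟨u, hu, hue, hp⟩ := hs
    exact ⟨u, hu, hue, hp.tail ⟨h1, h2, h3⟩⟩

theorem cx_in (h1 : 1 ≤ r1) (hH : ¬ HArm b r1 R1 ω) (h : s ∈ Cx b r1 R1 ω) :
    b.1 - R1 < s.1 ∧ s.1 < b.1 + R1 ∧ b.2 ≤ s.2 ∧ s.2 < b.2 + R1 := by
  obtain ⟨u, hu, hue, hp⟩ := h
  rw [mem_sites_hbox h1] at hu
  have h2 : nm (s - b) < R1 := by
    by_contra hcon
    push Not at hcon
    refine hH ⟨u, s, hue, ?_, hcon, hp⟩
    rw [nm, max_le_iff, abs_le, abs_le]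
    simp only [Prod.fst_sub, Prod.snd_sub]
    omega
  have h3 : b.2 ≤ s.2 := by
    rcases ReflTransGen.cases_tail hp with h | ⟨x, -, h⟩
    · rw [h]; omega
    · obtain ⟨-, -, h4, -, -⟩ := h
      rw [mem_hbox] at h4
      simp only at h4
      omega
  rw [nm, max_lt_iff, abs_lt, abs_lt] at h2
  simp only [Prod.fst_sub, Prod.snd_sub] at h2
  omega

/-! ### diagonal paths in the half box -/

theorem diag_down (h1 : 1 ≤ r1) (k : ℕ) : ∀ z : ℤ × ℤ, z.2 = b.2 + k → z ∈ sites (hbox b r1) →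
    ∃ x, b.1 - r1 ≤ x ∧ x ≤ b.1 + r1 ∧ ReflTransGen (PStep (↑(hbox b r1) : Set (ℤ × ℤ))) z (x, b.2) := by
  induction k with
  | zero =>
    intro z hz hs
    rw [mem_sites_hbox h1] at hs
    refine ⟨z.1, hs.1, hs.2.1, ?_⟩
    have : z = (z.1, b.2) := Prod.ext rfl (by simpa using hz)
    rw [← this]
  | succ k ih =>
    intro z hz hs
    rw [mem_sites_hbox h1] at hs
    push_cast at hz
    by_cases h : z.1 < b.1 + r1
    · obtain ⟨x, hx1, hx2, hx3⟩ := ih (z.1 + 1, z.2 - 1) (by simp only; omega)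
        (by rw [mem_sites_hbox h1]; simp only; omega)
      refine ⟨x, hx1, hx2, ReflTransGen.head ⟨Or.inl rfl, Or.inr rfl, ?_⟩ hx3⟩
      rw [mem_coe, mem_hbox]
      simp only
      omega
    · obtain ⟨x, hx1, hx2, hx3⟩ := ih (z.1 - 1, z.2 - 1) (by simp only; omega)
        (by rw [mem_sites_hbox h1]; simp only; omega)
      refine ⟨x, hx1, hx2, ReflTransGen.head ⟨Or.inr rfl, Or.inr rfl, ?_⟩ hx3⟩
      rw [mem_coe, mem_hbox]
      simp only
      omega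

theorem diag_row (h1 : 1 ≤ r1) (k : ℕ) : ∀ x : ℤ, b.1 - r1 ≤ x → x + 2 * k ≤ b.1 + r1 →
    ReflTransGen (PStep (↑(hbox b r1) : Set (ℤ × ℤ))) (x, b.2) (x + 2 * k, b.2) := by
  induction k with
  | zero => intro x _ _; simpa using ReflTransGen.refl
  | succ k ih =>
    intro x hx1 hx2
    push_cast at hx2 ⊢
    have h2 := ih (x + 2) (by omega) (by omega)
    have e : x + 2 * ((k : ℤ) + 1) = x + 2 + 2 * k := by ring
    rw [e]
    refine ReflTransGen.head (b := (x + 1, b.2 + 1)) ⟨Or.inl rfl, Or.inl rfl, ?_⟩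
      (ReflTransGen.head (b := (x + 2, b.2)) ⟨Or.inl (by ring), Or.inr (by ring), ?_⟩ h2)
    · rw [mem_coe, mem_hbox]
      simp only
      omega
    · rw [mem_coe, mem_hbox]
      simp only
      omega

theorem path_symm {F : Set (ℤ × ℤ)} (h : ReflTransGen (PStep F) s t) :
    ReflTransGen (PStep F) t s := by
  induction h with
  | refl => exact ReflTransGen.refl
  | tail _ h ih => exact ReflTransGen.head h.symm ih

theorem diag_conn (h1 : 1 ≤ r1) (hs : s ∈ sites (hbox b r1)) (ht : t ∈ sites (hbox b r1))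
    (hp : (s.1 + s.2) % 2 = (t.1 + t.2) % 2) :
    ReflTransGen (PStep (↑(hbox b r1) : Set (ℤ × ℤ))) s t := by
  have hs' := (mem_sites_hbox h1).1 hs
  have ht' := (mem_sites_hbox h1).1 ht
  obtain ⟨x, hx1, hx2, hx3⟩ := diag_down h1 (s.2 - b.2).toNat s (by omega) hs
  obtain ⟨y, hy1, hy2, hy3⟩ := diag_down h1 (t.2 - b.2).toNat t (by omega) ht
  have e1 := even_path hx3
  have e2 := even_path hy3
  simp only at e1 e2
  have key : ReflTransGen (PStep (↑(hbox b r1) : Set (ℤ × ℤ))) (x, b.2) (y, b.2) := by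
    rcases le_total x y with h | h
    · have := diag_row (b := b) h1 ((y - x) / 2).toNat x hx1 (by omega)
      have e : x + 2 * (((y - x) / 2).toNat : ℤ) = y := by omega
      rwa [e] at this
    · have := diag_row (b := b) h1 ((x - y) / 2).toNat y hy1 (by omega)
      have e : y + 2 * (((x - y) / 2).toNat : ℤ) = x := by omega
      rw [e] at this
      exact path_symm this
  exact (hx3.trans key).trans (path_symm hy3)

/-- The cluster is joined by the open squares with the half box filled. -/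
theorem cx_conn (h1 : 1 ≤ r1) (hs : s ∈ Cx b r1 R1 ω) (ht : t ∈ Cx b r1 R1 ω) :
    ReflTransGen (PStep (Fx b r1 R1 ω)) s t := by
  obtain ⟨u, hu, hue, hp⟩ := hs
  obtain ⟨w, hw, hwe, hp'⟩ := ht
  have m1 : ∀ x y, PStep (ha b r1 R1 ω) x y → PStep (Fx b r1 R1 ω) x y :=
    fun x y h => ⟨h.1, h.2.1, Or.inr h.2.2⟩
  have m2 : ∀ x y, PStep (↑(hbox b r1) : Set (ℤ × ℤ)) x y → PStep (Fx b r1 R1 ω) x y :=
    fun x y h => ⟨h.1, h.2.1, Or.inl h.2.2⟩
  have k1 := ReflTransGen.mono m1 _ _ hp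
  have k2 := ReflTransGen.mono m1 _ _ hp'
  have k3 := ReflTransGen.mono m2 _ _ (diag_conn h1 hu hw (by rw [Int.even_iff] at *; omega))
  exact ((path_symm k1).trans k3).trans k2

/-! ### the wall -/

/-- The setting: a flat window at `q m`, no open arm in the half annulus. -/
structure Se {n : ℕ} (q : ZMod n → ℤ × ℤ) (D : Finset (ℤ × ℤ)) (m : ℕ) (r1 R1 R : ℤ) (ω : Cfg) :
    Prop where
  poly : IsPolygon q
  enc : Encloses q D
  flat : Flt D (q m) R
  mn : m < n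
  off : q 0 ∉ sites (hbox (q m) R)
  h1 : 1 ≤ r1
  h2 : r1 < R1
  h3 : R1 + 2 ≤ R
  noarm : ¬ HArm (q m) r1 R1 ω

/-- The wall: the strand `W` (entering at the side `j0`, leaving at the side `y`) with potential `u`. -/
structure Wl {n : ℕ} (q : ZMod n → ℤ × ℤ) (D : Finset (ℤ × ℤ)) (m : ℕ) (r1 R1 : ℤ) (ω : Cfg)
    (W : Finset Ed) (y j0 : ℕ) (u : ℤ × ℤ → ℤ) : Prop where
  mem : W ∈ pcs (omx (q m) r1 R1 ω) D
  xy : IsXY q W j0 y
  y1 : (m : ℤ) - R1 ≤ y
  y2 : (y : ℤ) + r1 ≤ m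
  j1 : (m : ℤ) + r1 ≤ j0 + 1
  j2 : (j0 : ℤ) < m + R1
  ls : ∀ e ∈ W, ls e ∈ Cx (q m) r1 R1 ω
  pot : PotD D W u
  cx : ∀ s ∈ Cx (q m) r1 R1 ω, u s ≠ u (q 0)
  near : ∀ z ∈ sites D, u z ≠ u (q 0) →
    (q m).1 - R1 < z.1 ∧ z.1 < (q m).1 + R1 ∧ (q m).2 ≤ z.2 ∧ z.2 < (q m).2 + R1

section

variable {n m : ℕ} {q : ZMod n → ℤ × ℤ}

/-- A square of `D` at a site near `q m` is in the half box. -/
theorem sq_near (hF : Flt D b R) (h3 : R1 + 2 ≤ R) (hs : b.1 - R1 < s.1 ∧ s.1 < b.1 + R1 ∧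
    b.2 ≤ s.2 ∧ s.2 < b.2 + R1) {w : ℤ × ℤ} (hw : w ∈ D)
    (hc : (s.1 = w.1 ∨ s.1 = w.1 + 1) ∧ (s.2 = w.2 ∨ s.2 = w.2 + 1)) : w ∈ hbox b R1 := by
  rw [mem_hbox]
  have := (hF w (by omega) (by omega) (by omega) (by omega)).1 hw
  omega

/-- An edge at a site near `q m` is inner. -/
theorem inn_near (hF : Flt D b R) (h3 : R1 + 2 ≤ R) {e : Ed} (he : e ∈ eds D)
    (hs : b.1 - R1 < s.1 ∧ s.1 < b.1 + R1 ∧ b.2 ≤ s.2 ∧ s.2 < b.2 + R1)
    (hc1 : (s.1 = (hdv e).1 ∨ s.1 = (hdv e).1 + 1) ∧ (s.2 = (hdv e).2 ∨ s.2 = (hdv e).2 + 1))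
    (hc2 : (s.1 = (tlv e).1 ∨ s.1 = (tlv e).1 + 1) ∧ (s.2 = (tlv e).2 ∨ s.2 = (tlv e).2 + 1)) :
    e ∈ eds (hbox b R1) ∧ Inn b R1 e := by
  have key : ∀ w : ℤ × ℤ, ((s.1 = w.1 ∨ s.1 = w.1 + 1) ∧ (s.2 = w.2 ∨ s.2 = w.2 + 1)) →
      w ∈ hbox b R1 ∨ w.2 < b.2 := by
    intro w hc
    rw [mem_hbox]
    omega
  refine ⟨?_, key _ hc1, key _ hc2⟩
  rw [mem_eds] at he ⊢
  rcases he with h | h
  · exact Or.inl (sq_near hF h3 hs h hc1)
  · exact Or.inr (sq_near hF h3 hs h hc2)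

theorem cor_ls (e : Ed) : (((ls e).1 = (hdv e).1 ∨ (ls e).1 = (hdv e).1 + 1) ∧
    ((ls e).2 = (hdv e).2 ∨ (ls e).2 = (hdv e).2 + 1)) ∧ (((ls e).1 = (tlv e).1 ∨
    (ls e).1 = (tlv e).1 + 1) ∧ ((ls e).2 = (tlv e).2 ∨ (ls e).2 = (tlv e).2 + 1)) :=
  ⟨⟨(corner_hd e).1, (corner_hd e).2.1⟩, (corner_tl e).1, (corner_tl e).2.1⟩

theorem cor_rs (e : Ed) : (((rs e).1 = (hdv e).1 ∨ (rs e).1 = (hdv e).1 + 1) ∧
    ((rs e).2 = (hdv e).2 ∨ (rs e).2 = (hdv e).2 + 1)) ∧ (((rs e).1 = (tlv e).1 ∨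
    (rs e).1 = (tlv e).1 + 1) ∧ ((rs e).2 = (tlv e).2 ∨ (rs e).2 = (tlv e).2 + 1)) :=
  ⟨⟨(corner_hd e).2.2.1, (corner_hd e).2.2.2⟩, (corner_tl e).2.2.1, (corner_tl e).2.2.2⟩

/-- Open steps of the configuration `omx` in `D` stay in the cluster. -/
theorem cx_stp (hs : s ∈ Cx b r1 R1 ω) (h : Stp (omx b r1 R1 ω) D s t) :
    t ∈ Cx b r1 R1 ω := by
  have he := cx_even hs
  rcases h with ⟨-, h⟩ | ⟨h, -⟩
  · exact cx_step hs ⟨h.1, h.2.1, omx_true.1 h.2.2.1⟩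
  · exact absurd he h

/-- Near the half box. -/
def Nr (b : ℤ × ℤ) (R1 : ℤ) (z : ℤ × ℤ) : Prop :=
  b.1 - R1 < z.1 ∧ z.1 < b.1 + R1 ∧ b.2 ≤ z.2 ∧ z.2 < b.2 + R1

variable (S : Se q D m r1 R1 R ω)
include S

/-- Open steps of the configuration itself in `D` stay in the cluster. -/
theorem cx_stp' (hs : s ∈ Cx (q m) r1 R1 ω) (h : Stp ω D s t) : t ∈ Cx (q m) r1 R1 ω := by
  have he := cx_even hs
  rcases h with ⟨-, h⟩ | ⟨h, -⟩
  · obtain ⟨h1, h2, h3, h4⟩ := h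
    refine cx_step hs ⟨h1, h2, ?_⟩
    have h5 := sq_near S.flat S.h3 (cx_in S.h1 S.noarm hs) (mem_coe.1 h4) (by simp only; omega)
    by_cases h6 : (min s.1 t.1, min s.2 t.2) ∈ hbox (q m) r1
    · exact Or.inl h6
    · exact Or.inr ⟨h5, h6, h3⟩
  · exact absurd he h

/-- The last boundary site of the cluster. -/
theorem exists_j0 : ∃ j0 : ℕ, (m : ℤ) + r1 ≤ j0 + 1 ∧ (j0 : ℤ) < m + R1 ∧
    q (j0 : ℕ) ∈ Cx (q m) r1 R1 ω ∧ ∀ i : ℕ, j0 < i → (i : ℤ) ≤ m + R1 → q (i : ℕ) ∉ Cx (q m) r1 R1 ω := by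
  classical
  obtain ⟨hq, hD, hF, hm, h0, h1, h2, h3, hH⟩ := S
  have hfs : ∀ i : ℕ, (m : ℤ) - R ≤ i → (i : ℤ) < m + R →
      q (i : ℕ) = ((q m).1 + ((i : ℤ) - m), (q m).2) := fun i k1 k2 =>
    (flat_side hq hD hF (by omega) hm h0 k1 k2).1
  -- a first element
  obtain ⟨i1, hi1, hi1', hi2⟩ : ∃ i1 : ℕ, (m : ℤ) + r1 ≤ i1 + 1 ∧ (i1 : ℤ) ≤ m + r1 ∧
      q (i1 : ℕ) ∈ Cx (q m) r1 R1 ω := by
    have key : ∀ i : ℕ, (m : ℤ) + r1 ≤ i + 1 → (i : ℤ) ≤ m + r1 →
        Even ((q m).1 + ((i : ℤ) - m) + (q m).2) → q (i : ℕ) ∈ Cx (q m) r1 R1 ω := by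
      intro i k1 k2 k3
      refine cx_base ?_ ?_
      · rw [hfs i (by omega) (by omega), mem_sites_hbox h1]
        simp only
        omega
      · rw [hfs i (by omega) (by omega)]
        exact k3
    by_cases hp : Even ((q m).1 + r1 + (q m).2)
    · refine ⟨m + r1.toNat, by push_cast; omega, by push_cast; omega, key _ (by push_cast; omega)
        (by push_cast; omega) ?_⟩
      rw [Int.even_iff] at *
      push_cast
      omega
    · refine ⟨m + (r1 - 1).toNat, by push_cast; omega, by push_cast; omega,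
        key _ (by push_cast; omega) (by push_cast; omega) ?_⟩
      rw [Int.even_iff] at *
      push_cast
      omega
  set K := (Finset.range (m + R1.toNat + 1)).filter fun i : ℕ => q (i : ℕ) ∈ Cx (q m) r1 R1 ω with hK
  have hne : K.Nonempty := ⟨i1, mem_filter.2 ⟨mem_range.2 (by omega), hi2⟩⟩
  have hmax := K.max'_mem hne
  have hle := K.le_max' i1 (mem_filter.2 ⟨mem_range.2 (by omega), hi2⟩)
  obtain ⟨k1, k2⟩ := mem_filter.1 hmax
  rw [mem_range] at k1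
  refine ⟨K.max' hne, by omega, ?_, k2, ?_⟩
  · have k3 := cx_in h1 hH k2
    rw [hfs (K.max' hne) (by omega) (by omega)] at k3
    simp only at k3
    omega
  · intro i hi hi' hcon
    have := K.le_max' i (mem_filter.2 ⟨mem_range.2 (by omega), hcon⟩)
    omega

/-- **Existence of the wall.** -/
theorem exists_wall : ∃ (W : Finset Ed) (y j0 : ℕ) (u : ℤ × ℤ → ℤ), Wl q D m r1 R1 ω W y j0 u := by
  classical
  obtain ⟨j0, hj1, hj2, hj3, hj4⟩ := exists_j0 S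
  have S0 := S
  obtain ⟨hq, hD, hF, hm, h0, h1, h2, h3, hH⟩ := S
  have hR : 1 ≤ R := by omega
  have hfr := flat_range hq hD hF hR hm h0
  have hfs : ∀ i : ℕ, (m : ℤ) - R ≤ i → (i : ℤ) < m + R →
      q (i : ℕ) = ((q m).1 + ((i : ℤ) - m), (q m).2) := fun i k1 k2 =>
    (flat_side hq hD hF hR hm h0 k1 k2).1
  have hjn : j0 < n := by omega
  have hje := cx_even hj3
  have hbe := be_even hq hD hje
  have heD := be_mem hq hD (j0 : ZMod n)
  set ζ := omx (q m) r1 R1 ω with hζ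
  set W := piece ζ D (be q (j0 : ZMod n)) with hW
  have hWm : W ∈ pcs ζ D := piece_mem_pcs heD
  have hself : be q (j0 : ZMod n) ∈ W := self_mem_piece heD
  -- the left sites
  have hls : ∀ e ∈ W, ls e ∈ Cx (q m) r1 R1 ω := by
    intro e he
    refine (piece_const (P := fun e => ls e ∈ Cx (q m) r1 R1 ω) hWm (fun e he => ?_) hself he).1 ?_
    · rcases ls_stp (ω := ζ) he with h4 | h4
      · simp only [h4]
      · exact ⟨fun h => cx_stp h h4, fun h => cx_stp h h4.symm⟩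
    · rw [hbe.1]; exact hj3
  have hinn : ∀ e ∈ W, e ∈ eds (hbox (q m) R1) ∧ Inn (q m) R1 e := fun e he =>
    inn_near hF h3 (subset_eds hWm he) (cx_in h1 hH (hls e he)) (cor_ls e).1 (cor_ls e).2
  have hnl : ¬ IsLp D W := fun h => by
    have := h.tl hWm hself
    exact hbe.2.2.2 this
  obtain ⟨x, y, hxy⟩ := exists_xy hq hD hWm hnl
  have hx : x = j0 := by
    rcases (hxy.iff hq hD hWm hjn).1 hself with h4 | h4
    · exact h4.symm
    · exfalso
      rw [h4] at hje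
      exact hxy.2.2.2.2.2 hje
  subst hx
  have hbo := be_odd hq hD hxy.2.2.2.2.2
  have h0' : q 0 ∉ sites (hbox (q m) R1) := fun h' => h0 (sites_mono (hbox_mono (by omega)) h')
  have hyr := bd_inn hq hD (hF.mono (show R1 ≤ R by omega)) (by omega) hm h0' hxy.2.1
    (hinn _ hxy.2.2.2.1).1 (hinn _ hxy.2.2.2.1).2
  -- the site after the leaving side
  have hy1 : q ((y + 1 : ℕ) : ZMod n) ∈ Cx (q m) r1 R1 ω := by
    have := hls _ hxy.2.2.2.1
    rcases be_sides hq (y : ZMod n) with ⟨h4, h5⟩ | ⟨h4, h5⟩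
    · exfalso
      rw [h4] at this
      exact hxy.2.2.2.2.2 (cx_even this)
    · push_cast
      rw [← h5]
      exact this
  have hyx : y < x := by
    by_contra hcon
    push Not at hcon
    exact hj4 (y + 1) (by omega) (by push_cast; omega) hy1
  obtain ⟨u, hu⟩ := exists_pot hq hD hWm
  have hard : ∀ w : ℕ, w ≤ n → ((u (q w) ≠ u (q 0)) ↔ (y < w ∧ w ≤ x)) := by
    intro w hw
    rw [← XDL.sep_iff hq hD hu (z := q w), sep_ard hq hD hWm hw, ard_xy hq hD hWm hxy,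
      min_eq_right hyx.le, max_eq_left hyx.le]
    rcases be_sides hq (w : ZMod n) with ⟨h4, -⟩ | ⟨h4, -⟩
    · rw [← h4]; exact ls_mem_sites (be_mem hq hD _)
    · rw [← h4]; exact rs_mem_sites (be_mem hq hD _)
  have hFxD : ∀ w ∈ Fx (q m) r1 R1 ω, w ∈ D := by
    rintro w (h4 | ⟨h4, -, -⟩)
    · exact hbox_sub (hF.mono (show r1 ≤ R by omega)) h4
    · exact hbox_sub (hF.mono (show R1 ≤ R by omega)) h4
  have hconst : ∀ s ∈ Cx (q m) r1 R1 ω, ∀ t ∈ Cx (q m) r1 R1 ω, u s = u t := by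
    intro s hs t ht
    refine pot_reach hWm hu ((reach_iff (c := true) ?_).2 ?_)
    · have := cx_even hs
      rw [Int.even_iff] at this
      rw [this]
      rfl
    · refine ReflTransGen.mono ?_ _ _ (cx_conn h1 hs ht)
      intro x y h
      exact ⟨h.1, h.2.1, omx_true.2 h.2.2, hFxD _ h.2.2⟩
  have hcx : ∀ s ∈ Cx (q m) r1 R1 ω, u s ≠ u (q 0) := by
    intro s hs
    rw [hconst s hs _ hj3]
    exact (hard x hjn.le).2 ⟨hyx, le_rfl⟩
  -- the left end
  have hy2 : (y : ℤ) + r1 ≤ m := by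
    obtain ⟨i, hi1, hi2, hi3⟩ : ∃ i : ℕ, (i : ℤ) ≤ m - r1 + 1 ∧ (m : ℤ) - r1 ≤ i ∧
        q (i : ℕ) ∈ Cx (q m) r1 R1 ω := by
      have key : ∀ i : ℕ, (i : ℤ) ≤ m - r1 + 1 → (m : ℤ) - r1 ≤ i →
          Even ((q m).1 + ((i : ℤ) - m) + (q m).2) → q (i : ℕ) ∈ Cx (q m) r1 R1 ω := by
        intro i k1 k2 k3
        refine cx_base ?_ ?_
        · rw [hfs i (by omega) (by omega), mem_sites_hbox h1]
          simp only
          omega
        · rw [hfs i (by omega) (by omega)]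
          exact k3
      by_cases hp : Even ((q m).1 - r1 + (q m).2)
      · refine ⟨((m : ℤ) - r1).toNat, by omega, by omega, key _ (by omega) (by omega) ?_⟩
        rw [Int.even_iff] at *
        omega
      · refine ⟨((m : ℤ) - r1 + 1).toNat, by omega, by omega, key _ (by omega) (by omega) ?_⟩
        rw [Int.even_iff] at *
        omega
    have h4 := (hard i (by omega)).1 (hcx _ hi3)
    omega
  refine ⟨W, y, x, u, ⟨hWm, hxy, hyr.1, hy2, hj1, hj2, hls, hu, hcx, ?_⟩⟩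
  -- the sites away from `q m`
  intro z hz hzu
  by_contra hcon
  change ¬ Nr (q m) R1 z at hcon
  have hWZ : ¬ Vz (Zg (q m) R1 R) W := by
    rintro ⟨e, he, heZ⟩
    have h4 := cx_in h1 hH (hls e he)
    have h5 := cor_ls e
    rw [mem_eds, ND.mem_Zg, ND.mem_Zg] at heZ
    omega
  have hring : ∀ z ∈ sites (Zg (q m) R1 R), u z = u (q 0) := by
    intro z hz
    by_contra hne
    have h4 : Sep D W z (q 0) := ⟨u, hu, hne⟩
    have h5 : q ((m + R1.toNat : ℕ) : ZMod n) ∈ sites (Zg (q m) R1 R) := by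
      have h6 := hfs (m + R1.toNat) (by omega) (by omega)
      rw [h6, mem_sites_Zg (by omega) (by omega)]
      simp only
      omega
    have h6 := (sep_zone (zone_sub hF le_rfl) (econ_Zg (by omega) (by omega)) hWZ hz h5).1 h4
    rw [sep_ard hq hD hWm (by omega), ard_xy hq hD hWm hxy, min_eq_right hyx.le,
      max_eq_left hyx.le] at h6
    omega
  have hg := XDL.const_sites hq hD (g := fun z => if Nr (q m) R1 z then u (q 0) else u z)
    (fun e he => ?_) hz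
  · rw [if_neg hcon] at hg
    have h4 : ¬ Nr (q m) R1 (q 0) := by
      intro h5
      apply h0
      rw [mem_sites_hbox hR]
      unfold Nr at h5
      omega
    rw [if_neg h4] at hg
    exact hzu hg
  · have hcl := cor_ls e
    have hcr := cor_rs e
    -- the square of `D`
    obtain ⟨w, hw, hwl, hwr⟩ : ∃ w ∈ D, (((ls e).1 = w.1 ∨ (ls e).1 = w.1 + 1) ∧
        ((ls e).2 = w.2 ∨ (ls e).2 = w.2 + 1)) ∧ (((rs e).1 = w.1 ∨ (rs e).1 = w.1 + 1) ∧
        ((rs e).2 = w.2 ∨ (rs e).2 = w.2 + 1)) := by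
      rcases mem_eds.1 he with h4 | h4
      · exact ⟨_, h4, hcl.1, hcr.1⟩
      · exact ⟨_, h4, hcl.2, hcr.2⟩
    by_cases a1 : Nr (q m) R1 (ls e) <;> by_cases a2 : Nr (q m) R1 (rs e)
    · rw [if_pos a1, if_pos a2]
    · rw [if_pos a1, if_neg a2]
      symm
      apply hring
      have h5 := sq_near hF h3 a1 hw hwl
      rw [mem_sites_Zg (by omega) (by omega)]
      rw [mem_hbox] at h5
      unfold Nr at a1 a2
      omega
    · rw [if_neg a1, if_pos a2]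
      apply hring
      have h5 := sq_near hF h3 a2 hw hwr
      rw [mem_sites_Zg (by omega) (by omega)]
      rw [mem_hbox] at h5
      unfold Nr at a1 a2
      omega
    · rw [if_neg a1, if_neg a2]
      exact hu.eq he fun h4 => a1 (cx_in h1 hH (hls e h4))

end

end Vale.Agent.P167.H640.CZ
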