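import Vale.Agent.P167.H640.CZ.Wall

/-!
# P167, general `q`, block BRQ (A): the explored set

`Zx b r1 R1 ω`: the squares of the half box of radius `R1` at the open cluster `Cx` of the half box of
radius `r1`. It is sealed, and it depends only on its own squares.
-/

namespace Vale.Agent.P167.H640.CZ

open Finset Relation Vale.Agent.P167 Vale.Agent.P167.BR
open Vale.Agent.P145.FB (PStep)
open Vale.Agent.P167.QB (ha HArm)

variable {b : ℤ × ℤ} {r r1 R1 R : ℤ} {ω ω' : Cfg} {D : Finset (ℤ × ℤ)} {A : Finset Ed}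
  {s t v w : ℤ × ℤ}

/-- `s` is a corner of `v`. -/
def Cor (s v : ℤ × ℤ) : Prop := (s.1 = v.1 ∨ s.1 = v.1 + 1) ∧ (s.2 = v.2 ∨ s.2 = v.2 + 1)

theorem mem_sites_one : s ∈ sites {v} ↔ Cor s v := by
  rw [mem_sites]
  simp only [mem_singleton, exists_eq_left, Cor]

/-- The medial edge between two corners of a square. -/
theorem exists_ed (hs : Even (s.1 + s.2)) (ht : ¬ Even (t.1 + t.2)) (h1 : Cor s v) (h2 : Cor t v) :
    ∃ e : Ed, ls e = s ∧ rs e = t ∧ (hdv e = v ∨ tlv e = v) := by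
  obtain ⟨a, b⟩ := v
  obtain ⟨x, y⟩ := s
  obtain ⟨z, w⟩ := t
  unfold Cor at h1 h2
  simp only at *
  rw [Int.even_iff] at hs ht
  by_cases hy : y = w
  · refine ⟨Sum.inr (a, y - 1), ?_⟩
    simp only [ls, rs, hdv, tlv]
    by_cases he : Even (a + (y - 1))
    · simp only [if_pos he]
      rw [Int.even_iff] at he
      refine ⟨?_, ?_, ?_⟩
      · ext <;> dsimp only <;> omega
      · ext <;> dsimp only <;> omega
      · simp only [Prod.mk.injEq, true_and, and_true]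
        omega
    · simp only [if_neg he]
      rw [Int.even_iff] at he
      refine ⟨?_, ?_, ?_⟩
      · ext <;> dsimp only <;> omega
      · ext <;> dsimp only <;> omega
      · simp only [Prod.mk.injEq, true_and, and_true]
        omega
  · refine ⟨Sum.inl (x - 1, b), ?_⟩
    simp only [ls, rs, hdv, tlv]
    by_cases he : Even (x - 1 + b)
    · simp only [if_pos he]
      rw [Int.even_iff] at he
      refine ⟨?_, ?_, ?_⟩
      · ext <;> dsimp only <;> omega
      · ext <;> dsimp only <;> omega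
      · simp only [Prod.mk.injEq, true_and, and_true]
        omega
    · simp only [if_neg he]
      rw [Int.even_iff] at he
      refine ⟨?_, ?_, ?_⟩
      · ext <;> dsimp only <;> omega
      · ext <;> dsimp only <;> omega
      · simp only [Prod.mk.injEq, true_and, and_true]
        omega

/-- The other corner of the same parity. -/
theorem step_of {F : Set (ℤ × ℤ)} (hv : v ∈ F) (h1 : Cor s v) (h2 : Cor t v)
    (h : (s.1 + s.2) % 2 = (t.1 + t.2) % 2) : s = t ∨ PStep F s t := by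
  obtain ⟨a, b⟩ := v
  obtain ⟨x, y⟩ := s
  obtain ⟨z, w⟩ := t
  unfold Cor at h1 h2
  simp only at *
  by_cases he : x = z
  · left
    ext <;> simp only <;> omega
  · right
    refine ⟨by simp only; omega, by simp only; omega, ?_⟩
    have : (min x z, min y w) = (a, b) := by
      ext <;> simp only <;> omega
    simp only
    rw [this]
    exact hv

open Classical in
/-- The squares of the half box of radius `R1` at the cluster. -/
noncomputable def Zx (b : ℤ × ℤ) (r1 R1 : ℤ) (ω : Cfg) : Finset (ℤ × ℤ) :=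
  (hbox b R1).filter fun v => ∃ s ∈ Cx b r1 R1 ω, Cor s v

theorem mem_Zx : v ∈ Zx b r1 R1 ω ↔ v ∈ hbox b R1 ∧ ∃ s ∈ Cx b r1 R1 ω, Cor s v := by
  classical
  unfold Zx
  rw [mem_filter]

theorem Zx_sub : Zx b r1 R1 ω ⊆ hbox b R1 := fun _ h => (mem_Zx.1 h).1

theorem Zx_low (h : r1 ≤ R1) : hbox b r1 ⊆ Zx b r1 R1 ω := by
  intro v hv
  refine mem_Zx.2 ⟨hbox_mono h hv, ?_⟩
  by_cases hp : Even (v.1 + v.2)
  · exact ⟨v, cx_base (mem_sites.2 ⟨v, hv, Or.inl rfl, Or.inl rfl⟩) hp, Or.inl rfl, Or.inl rfl⟩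
  · refine ⟨(v.1 + 1, v.2), cx_base (mem_sites.2 ⟨v, hv, Or.inr rfl, Or.inl rfl⟩) ?_, Or.inr rfl,
      Or.inl rfl⟩
    rw [Int.even_iff] at *
    simp only
    omega

/-- The explored set is sealed. -/
theorem Zx_sld (h1 : 1 ≤ r1) (hH : ¬ HArm b r1 R1 ω) (hv : v ∈ Zx b r1 R1 ω)
    (hw : w ∉ Zx b r1 R1 ω) (hw2 : b.2 ≤ w.2) (hs : Cor s v) (hs' : Cor s w)
    (he : Even (s.1 + s.2)) : ω v = false := by
  by_contra hc
  have hc' : ω v = true := by simpa using hc
  obtain ⟨hvR, c, hcC, hcv⟩ := mem_Zx.1 hv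
  have hF : v ∈ Fx b r1 R1 ω := by
    by_cases h : v ∈ hbox b r1
    · exact Or.inl h
    · exact Or.inr ⟨hvR, h, hc'⟩
  have hce := cx_even hcC
  have hsC : s ∈ Cx b r1 R1 ω := by
    rcases step_of hF hcv hs (by rw [Int.even_iff] at *; omega) with h | h
    · rw [← h]; exact hcC
    · exact cx_step hcC h
  refine hw (mem_Zx.2 ⟨?_, s, hsC, hs'⟩)
  have := cx_in h1 hH hsC
  unfold Cor at hs'
  rw [mem_hbox]
  omega

/-- The cluster depends only on the squares of the explored set. -/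
theorem Cx_congr (h : ∀ v ∈ Zx b r1 R1 ω, ω v = ω' v) : Cx b r1 R1 ω = Cx b r1 R1 ω' := by
  ext s
  constructor
  · rintro ⟨u, hu, hue, hp⟩
    induction hp with
    | refl => exact cx_base hu hue
    | @tail x y hx hxy ih =>
      obtain ⟨u', hu', hue', hp'⟩ := ih
      refine ⟨u', hu', hue', hp'.tail ⟨hxy.1, hxy.2.1, ?_⟩⟩
      obtain ⟨w, hw, c1, c2⟩ := step_corner hxy
      obtain ⟨a1, a2, a3, a4, a5⟩ := hxy
      refine ⟨a3, a4, ?_⟩
      rw [← h _ (mem_Zx.2 ⟨a3, x, ⟨u, hu, hue, hx⟩, ?_⟩)]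
      · exact a5
      · unfold Cor
        simp only
        omega
  · rintro ⟨u, hu, hue, hp⟩
    induction hp with
    | refl => exact cx_base hu hue
    | @tail x y hx hxy ih =>
      have ih' := ih
      obtain ⟨u', hu', hue', hp'⟩ := ih
      refine ⟨u', hu', hue', hp'.tail ⟨hxy.1, hxy.2.1, ?_⟩⟩
      obtain ⟨a1, a2, a3, a4, a5⟩ := hxy
      refine ⟨a3, a4, ?_⟩
      rw [h _ (mem_Zx.2 ⟨a3, x, ih', ?_⟩)]
      · exact a5
      · unfold Cor
        simp only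
        omega

theorem Zx_congr (h : ∀ v ∈ Zx b r1 R1 ω, ω v = ω' v) : Zx b r1 R1 ω = Zx b r1 R1 ω' := by
  ext v
  rw [mem_Zx, mem_Zx, Cx_congr h]

theorem noarm_congr (h1 : 1 ≤ r1) (h2 : r1 < R1) (h : ∀ v ∈ Zx b r1 R1 ω, ω v = ω' v)
    (hH : ¬ HArm b r1 R1 ω) : ¬ HArm b r1 R1 ω' := by
  rintro ⟨u, s, hue, hu, hs, hp⟩
  rcases ReflTransGen.cases_head hp with h3 | ⟨x, h3, h4⟩
  · rw [h3] at hu
    omega
  · have hub : u ∈ sites (hbox b r1) := by
      rw [mem_sites_hbox h1]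
      rw [nm, max_le_iff, abs_le, abs_le] at hu
      simp only [Prod.fst_sub, Prod.snd_sub] at hu
      obtain ⟨-, -, h6, -, -⟩ := h3
      rw [mem_hbox] at h6
      simp only at h6
      omega
    have hsC : s ∈ Cx b r1 R1 ω := by
      rw [Cx_congr h]
      exact ⟨u, hub, hue, hp⟩
    have h5 := cx_in h1 hH hsC
    rw [nm, le_max_iff, le_abs, le_abs] at hs
    simp only [Prod.fst_sub, Prod.snd_sub] at hs
    omega

/-- Open steps from the cluster in half boxes. -/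
theorem cx_stp_box (h1 : 1 ≤ r1) (hH : ¬ HArm b r1 R1 ω) (hs : s ∈ Cx b r1 R1 ω)
    (hup : ∀ v ∈ D, b.2 ≤ v.2) (h : Stp ω D s t) : t ∈ Cx b r1 R1 ω := by
  have he := cx_even hs
  rcases h with ⟨-, h⟩ | ⟨h, -⟩
  · obtain ⟨a1, a2, a3, a4⟩ := h
    refine cx_step hs ⟨a1, a2, ?_⟩
    have h5 := cx_in h1 hH hs
    have h6 := hup _ a4
    have h7 : (min s.1 t.1, min s.2 t.2) ∈ hbox b R1 := by
      rw [mem_hbox]
      simp only at h6 ⊢
      omega
    by_cases h8 : (min s.1 t.1, min s.2 t.2) ∈ hbox b r1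
    · exact Or.inl h8
    · exact Or.inr ⟨h7, h8, a3⟩
  · exact absurd he h

/-- A piece with an edge at the cluster. -/
theorem cx_piece (h1 : 1 ≤ r1) (hH : ¬ HArm b r1 R1 ω) (hup : ∀ v ∈ D, b.2 ≤ v.2)
    (hA : A ∈ pcs ω D) {e e' : Ed} (he : e ∈ A) (he' : e' ∈ A) (h : ls e ∈ Cx b r1 R1 ω) :
    ls e' ∈ Cx b r1 R1 ω := by
  refine (piece_const (P := fun e => ls e ∈ Cx b r1 R1 ω) hA (fun e he => ?_) he he').1 h
  rcases ls_stp (ω := ω) he with h4 | h4
  · simp only [h4]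
  · exact ⟨fun h => cx_stp_box h1 hH h hup h4, fun h => cx_stp_box h1 hH h hup h4.symm⟩

/-- The squares of a piece at the cluster are explored. -/
theorem cx_hdv (h1 : 1 ≤ r1) (hH : ¬ HArm b r1 R1 ω) (hup : ∀ v ∈ D, b.2 ≤ v.2)
    {e : Ed} (h : ls e ∈ Cx b r1 R1 ω) (he : hdv e ∈ D) : hdv e ∈ Zx b r1 R1 ω := by
  have h5 := cx_in h1 hH h
  have h6 := hup _ he
  have h7 := (cor_ls e).1
  refine mem_Zx.2 ⟨?_, ls e, h, h7⟩
  rw [mem_hbox]
  omega

theorem hbox_up {v : ℤ × ℤ} (hv : v ∈ hbox b R) : b.2 ≤ v.2 := by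
  rw [mem_hbox] at hv
  omega

/-- A piece of a half box which visits the small half box. -/
theorem cx_vis (h1 : 1 ≤ r1) (hH : ¬ HArm b r1 R1 ω) (hup : ∀ v ∈ D, b.2 ≤ v.2) (hr : r ≤ r1)
    (hA : A ∈ pcs ω D) (hV : Vz (hbox b r) A) {e : Ed} (he : e ∈ A) : ls e ∈ Cx b r1 R1 ω := by
  obtain ⟨e', he', h⟩ := hV
  exact cx_piece h1 hH hup hA he' he
    (cx_base (sites_mono (hbox_mono hr) (ls_mem_sites h)) (even_ls e'))

end Vale.Agent.P167.H640.CZ
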